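import Vale.Agent.P042.T.Defs

/-! # P042 T/Fin (TASK; helper names end with _tfi): the counting inequality and the final shape of the bound.
`tm_del`: `delsarte` with `S = Ico n₀ (T ^ I * M)`, `s = val h`, `W n = ∑ i ≤ I, if n < T ^ i * M then (3 / 2) ^ i / val h (T ^ i * M) * (Wt (val h) (T ^ i * M) n * ∑ d ∈ Icc 1 R, w d n) else 0`;
`Tm θ = ∑ n ∈ S, W n * ee (θ * val h n)` (`sum_comm`, `sum_filter`, `T ^ i * M ≤ T ^ I * M`); model: `Glob.sav` in S/Trans.lean.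
`asym`: `δ = 1 / (2 (e + 1))`; `N ≥ 1`; `L` maximal with `2 ^ ((A + 1) L ^ (e + 1)) ≤ N` (`Nat.find` for the least `L` that fails); `log N ≤ (A + 1) (L + 1) ^ (e + 1)`, so `(log N) ^ δ ≤ (A + 1) √(L + 1) ≤ (A + 1) ^ 2 + (L + 1) / 4`;
`(1 / 2) ^ L ≤ exp (-L / 4)`; `C' = (|C| + 1) exp ((A + 1) ^ 2 + L₀ + 2)`; if `L ≤ L₀` use `x ≤ N`; for `L ≥ 1`, `A L ^ e ≤ (A + 1) L ^ (e + 1)`. -/

namespace Vale.Agent.P042.S

open Finset Polynomial

variable {h : ℤ[X]} {B : ℝ} {w : ℕ → ℤ → ℝ} {k n₀ : ℕ}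

theorem tm_del (hG : Gro (val h) k n₀ B) {T M R I N : ℕ} (hT : 1 ≤ T) (hM : n₀ ≤ M) {A : Finset ℕ}
    (hA : A ⊆ Icc 1 N) (hN : B * ((T ^ I * M : ℕ) : ℝ) ^ k ≤ N)
    (hf : ∀ a ∈ A, ∀ b ∈ A, ∀ n : ℕ, n₀ ≤ n → (a : ℤ) - b = h.eval (n : ℤ) → a = b) {δ : ℝ}
    (hδ : 0 ≤ δ) (H : ∀ θ : ℝ, -δ ≤ (Tm h w n₀ M T R I θ).re) :
    A.card * (Tm h w n₀ M T R I 0).re ≤ 2 * N * δ := by
  set W : ℕ → ℝ := fun n => ∑ i ∈ range (I + 1), if n < T ^ i * M then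
    (3 / 2 : ℝ) ^ i / val h (T ^ i * M) * (Wt (val h) (T ^ i * M) n * ∑ d ∈ Icc 1 R, w d n) else 0
    with hW
  have key : ∀ θ : ℝ, Tm h w n₀ M T R I θ =
      ∑ n ∈ Ico n₀ (T ^ I * M), (W n : ℂ) * ee (θ * val h n) := fun θ => by
    simp only [hW, Complex.ofReal_sum, sum_mul]
    rw [sum_comm]
    refine sum_congr rfl fun i hi => ?_
    have h1 : T ^ i * M ≤ T ^ I * M :=
      Nat.mul_le_mul_right _ (Nat.pow_le_pow_right hT (Nat.lt_succ_iff.1 (mem_range.1 hi)))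
    have h2 : Ico n₀ (T ^ i * M) = (Ico n₀ (T ^ I * M)).filter (· < T ^ i * M) := by
      ext n
      simp only [mem_Ico, mem_filter]
      omega
    rw [Tk, h2, sum_filter, sum_div, mul_sum]
    refine sum_congr rfl fun n _ => ?_
    split_ifs
    · push_cast
      ring
    · simp
  have hB : 0 ≤ B := zero_le_one.trans hG.one
  have hd := delsarte (S := Ico n₀ (T ^ I * M)) hA W (val h) (fun n hn => ?_)
    (fun a ha b hb n hn hab => ?_) hδ fun θ => key θ ▸ H θ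
  · rw [key]
    simp only [zero_mul, ee_zero, mul_one]
    rwa [← Complex.ofReal_sum, Complex.ofReal_re]
  · obtain ⟨h1, h3⟩ := mem_Ico.1 hn
    refine ⟨hG.pos n h1, ?_⟩
    have h4 : (n : ℝ) ≤ ((T ^ I * M : ℕ) : ℝ) := by exact_mod_cast h3.le
    have h5 : (val h n : ℝ) ≤ N := (hG.up n h1).trans (le_trans (by gcongr) hN)
    exact_mod_cast h5
  · have h1 := (mem_Ico.1 hn).1
    have h4 := hG.pos n h1
    rw [← hab, hf a ha b hb n h1 hab, sub_self] at h4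
    exact lt_irrefl _ h4

theorem asym (e : ℕ) : ∃ δ : ℝ, 0 < δ ∧ ∀ (A L₀ : ℕ) (C : ℝ), ∃ C' : ℝ, ∀ (N : ℕ) (x : ℝ), x ≤ N →
    (∀ L : ℕ, L₀ ≤ L → 2 ^ (A * L ^ e) ≤ N → x ≤ C * N * (1 / 2) ^ L) →
      x ≤ C' * N * Real.exp (-(Real.log N) ^ δ) := by
  refine ⟨((2 * (e + 1) : ℕ) : ℝ)⁻¹, by positivity, fun A L₀ C =>
    ⟨(|C| + 1) * Real.exp ((A + 1) ^ 2 + L₀ + 2), fun N x hx H => ?_⟩⟩
  rcases Nat.eq_zero_or_pos N with rfl | hN
  · simpa using hx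
  have hN' : (1 : ℝ) ≤ N := by exact_mod_cast hN
  have hex : ∃ L, N < 2 ^ ((A + 1) * L ^ (e + 1)) := ⟨N, Nat.lt_two_pow_self.trans_le
    (Nat.pow_le_pow_right two_pos ((Nat.le_self_pow e.succ_ne_zero N).trans
      (Nat.le_mul_of_pos_left _ A.succ_pos)))⟩
  obtain ⟨L, h1, h2⟩ : ∃ L, 2 ^ ((A + 1) * L ^ (e + 1)) ≤ N ∧
      N < 2 ^ ((A + 1) * (L + 1) ^ (e + 1)) := by
    have h1 := Nat.find_spec hex
    obtain ⟨L, hL⟩ : ∃ L, Nat.find hex = L + 1 := Nat.exists_eq_succ_of_ne_zero fun h0 => by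
      rw [h0] at h1
      simp at h1
      omega
    exact ⟨L, not_lt.1 (Nat.find_min hex (by omega)), hL ▸ h1⟩
  have h3 : Real.log N ≤ ((A + 1) * √(L + 1)) ^ (2 * (e + 1)) := by
    have h4 : (N : ℝ) ≤ 2 ^ ((A + 1) * (L + 1) ^ (e + 1)) := by exact_mod_cast h2.le
    have h5 := Real.log_le_log (by positivity) h4
    have h6 : Real.log 2 ≤ 1 := by linarith [Real.log_two_lt_d9]
    rw [Real.log_pow] at h5
    refine h5.trans ((mul_le_of_le_one_right (Nat.cast_nonneg _) h6).trans ?_)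
    rw [mul_pow, pow_mul (√_), Real.sq_sqrt (by positivity)]
    push_cast
    gcongr
    exact le_self_pow₀ (by linarith [(Nat.cast_nonneg A : (0 : ℝ) ≤ A)]) (by omega)
  have h4 : Real.log N ^ ((2 * (e + 1) : ℕ) : ℝ)⁻¹ ≤ (A + 1) ^ 2 + (L + 1) / 4 := by
    refine (Real.rpow_le_rpow (Real.log_nonneg hN') h3 (by positivity)).trans ?_
    rw [Real.pow_rpow_inv_natCast (by positivity) (by omega)]
    nlinarith [sq_nonneg ((A : ℝ) + 1 - √(L + 1) / 2), Real.sq_sqrt (by positivity : (0 : ℝ) ≤ L + 1)]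
  generalize Real.log N ^ ((2 * (e + 1) : ℕ) : ℝ)⁻¹ = u at h4
  rw [mul_right_comm (|C| + 1), mul_assoc, ← Real.exp_add]
  have hL₀ : (0 : ℝ) ≤ L₀ := Nat.cast_nonneg _
  have hC := abs_nonneg C
  rcases le_or_gt L L₀ with h5 | h5
  · have h6 : (L : ℝ) ≤ L₀ := by exact_mod_cast h5
    have h7 : 1 ≤ Real.exp ((A + 1) ^ 2 + L₀ + 2 + -u) := Real.one_le_exp (by linarith)
    refine hx.trans (le_trans ?_ (le_mul_of_one_le_right (by positivity) h7))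
    nlinarith
  · have h6 : A * L ^ e ≤ (A + 1) * L ^ (e + 1) :=
      Nat.mul_le_mul A.le_succ (Nat.pow_le_pow_right (by omega) e.le_succ)
    refine (H L h5.le ((Nat.pow_le_pow_right two_pos h6).trans h1)).trans ?_
    have h7 : (1 / 2 : ℝ) ^ L ≤ Real.exp ((A + 1) ^ 2 + L₀ + 2 + -u) := by
      have h8 : (1 / 2 : ℝ) ≤ Real.exp (-1 / 4) := by linarith [Real.add_one_le_exp (-1 / 4)]
      refine (pow_le_pow_left₀ (by norm_num) h8 L).trans ?_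
      rw [← Real.exp_nat_mul]
      exact Real.exp_le_exp.2 (by linarith)
    have h8 : C ≤ |C| + 1 := by linarith [le_abs_self C]
    gcongr

end Vale.Agent.P042.S
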