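import Vale.Agent.P042.T.KernA
import Vale.Agent.P042.S.Dich

/-! # P042 T/KernT (TASK; helper names end with _tke): the kernel.
`K₀` from `dichot`, `k = natDegree h`, `E = R ^ (4 K₀)`, `E' = E T ^ (2 L k)`, `M = R ^ 4 E E'` (naturals), `K = T (2 + 2 k) + 4 + 8 K₀` (`T ^ L ≤ (2 ^ T) ^ L = (2 ^ L) ^ T ≤ R ^ T`), `C₁ = 84 B ^ 3 + 4 B ^ 2 n₀ ^ k`, `C = 7 + 3 C₁`; `1 / R ≤ (1 / 2) ^ L`, `1 ≤ (1 / 2) ^ L (3 / 2) ^ (2 L) = (9 / 8) ^ L`.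
For `θ`: either all scales `i ≤ 2 L` are minor in `dichot` (with `D = R ^ 4`), `tm_minor`; or one is major: `q ≤ E`, `|β| M ^ k ≤ E`, so `|β| (T ^ j M) ^ k ≤ E'` for `j ≤ 2 L` and `|β| ≤ E / M ≤ 1 / 16`; `tm_major`.  `tm_zero`. -/

namespace Vale.Agent.P042.S

open Finset Polynomial

variable {h : ℤ[X]} {B : ℝ} {n₀ : ℕ}

theorem pow_le_tke {T L R : ℕ} (hR : 2 ^ L ≤ R) : T ^ (2 * L) ≤ R ^ (2 * T) := by
  have h1 : T ^ L ≤ R ^ T :=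
    calc T ^ L ≤ (2 ^ T) ^ L := Nat.pow_le_pow_left Nat.lt_two_pow_self.le L
      _ = (2 ^ L) ^ T := by rw [← pow_mul, ← pow_mul, mul_comm]
      _ ≤ R ^ T := Nat.pow_le_pow_left hR T
  rw [mul_comm 2 L, mul_comm 2 T, pow_mul, pow_mul]
  exact Nat.pow_le_pow_left h1 2

theorem beta_tke {β : ℝ} {E M U V W k : ℕ} (hk : 1 ≤ k) (hE : 1 ≤ E) (hV : 1 ≤ V) (hW : W ≤ U)
    (hM : 16 * E ≤ M) (h : |β| * ((V * M : ℕ) : ℝ) ^ k ≤ E) :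
    |β| * ((W * M : ℕ) : ℝ) ^ k ≤ ((E * U ^ k : ℕ) : ℝ) ∧ |β| < 1 / 2 := by
  have h0 := abs_nonneg β
  have h1 : |β| * (M : ℝ) ^ k ≤ E := by
    refine le_trans ?_ h
    gcongr
    exact Nat.le_mul_of_pos_left M hV
  have hE' : (1 : ℝ) ≤ E := by exact_mod_cast hE
  have hM' : 16 * (E : ℝ) ≤ M := by exact_mod_cast hM
  constructor
  · have hW' : (W : ℝ) ≤ U := by exact_mod_cast hW
    push_cast
    rw [mul_pow, mul_comm ((W : ℝ) ^ k), ← mul_assoc]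
    gcongr
  · have h2 : (M : ℝ) ≤ (M : ℝ) ^ k := le_self_pow₀ (by linarith) (by omega)
    have h3 : |β| * (16 * E) ≤ |β| * (M : ℝ) ^ k := mul_le_mul_of_nonneg_left (hM'.trans h2) h0
    nlinarith

theorem kernT (hk : 2 ≤ h.natDegree) (hl : 0 < h.leadingCoeff)
    (hG : Gro (val h) h.natDegree n₀ B) {T : ℕ} (hT : 2 * B ^ 2 ≤ T) :
    ∃ (K : ℕ) (C : ℝ), 0 < C ∧ ∀ L R : ℕ, 1 ≤ L → 2 ^ L ≤ R → n₀ ≤ R → ∃ E M : ℕ, n₀ ≤ M ∧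
      T ^ (2 * L) * M ≤ R ^ K ∧ ∀ w, Ser h (1 / 500) (2 * (1 / 2) ^ L) R E w →
        (∀ θ : ℝ, -(C * (1 / 2) ^ L * (3 / 2) ^ (2 * L)) ≤ (Tm h w n₀ M T R (2 * L) θ).re) ∧
        (1 / 4 - C * (1 / 2) ^ L) * (3 / 2) ^ (2 * L) ≤ (Tm h w n₀ M T R (2 * L) 0).re := by
  obtain ⟨K₀, hK⟩ := dichot hk hl
  generalize h.natDegree = k at *
  have hB := hG.one
  have hT1 : 1 ≤ T := by
    have : (1 : ℝ) ≤ T := by nlinarith
    exact_mod_cast this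
  obtain ⟨C₁, hC₁⟩ : ∃ C₁, C₁ = 84 * B ^ 3 + 4 * B ^ 2 * (n₀ : ℝ) ^ k := ⟨_, rfl⟩
  have hB3 : 0 < B ^ 3 := by positivity
  have hC7 : 7 * B ^ 3 ≤ C₁ := by
    have : 0 ≤ 4 * B ^ 2 * (n₀ : ℝ) ^ k := by positivity
    linarith
  refine ⟨2 * T + (4 + 4 * K₀ + (4 * K₀ + 2 * T * k)), 7 + 3 * C₁, by linarith, ?_⟩
  intro L R hL hR hn
  have hR2 : 2 ≤ R := le_trans (by simpa using Nat.pow_le_pow_right two_pos hL) hR
  have hR1 : 1 ≤ R := by omega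
  have hU := pow_le_tke (T := T) hR
  obtain ⟨E, hE⟩ : ∃ E, E = (R ^ 4) ^ K₀ := ⟨_, rfl⟩
  have hE1 : 1 ≤ E := hE ▸ Nat.one_le_pow _ _ (by positivity)
  have hE' : 1 ≤ E * (T ^ (2 * L)) ^ k := Nat.mul_pos hE1 (by positivity)
  obtain ⟨M, hM⟩ : ∃ M, M = R ^ 4 * E * (E * (T ^ (2 * L)) ^ k) := ⟨_, rfl⟩
  have hM1 : R ^ 4 * E ≤ M := hM ▸ Nat.le_mul_of_pos_right _ hE'
  have hM2 : R ^ 4 ≤ M := (Nat.le_mul_of_pos_right _ hE1).trans hM1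
  have h16 : 16 ≤ R ^ 4 := Nat.pow_le_pow_left hR2 4
  have hnM : n₀ ≤ M := hn.trans ((Nat.le_self_pow (by norm_num) R).trans hM2)
  refine ⟨E, M, hnM, ?_, fun w hS => ?_⟩
  · rw [hM, hE, pow_add, pow_add, pow_add, pow_add, pow_mul R 4, pow_mul R (2 * T)]
    gcongr
  obtain ⟨x, hx⟩ : ∃ x : ℝ, x = (1 / 2) ^ L := ⟨_, rfl⟩
  obtain ⟨y, hy⟩ : ∃ y : ℝ, y = (3 / 2) ^ (2 * L) := ⟨_, rfl⟩
  have x0 : 0 < x := by rw [hx]; positivity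
  have y0 : 0 < y := by rw [hy]; positivity
  have x1 : 2 * x ≤ 1 := by
    have : x ≤ (1 / 2) ^ 1 := hx ▸ pow_le_pow_of_le_one (by norm_num) (by norm_num) hL
    linarith
  have xy : 1 ≤ x * y := by
    rw [hx, hy, pow_mul, ← mul_pow]
    exact one_le_pow₀ (by norm_num)
  have xR : ∀ c : ℝ, 0 ≤ c → c / R * y ≤ c * (x * y) := fun c hc => by
    have h1 : ((2 : ℝ) ^ L) ≤ R := by exact_mod_cast hR
    have h2 : (R : ℝ)⁻¹ ≤ x := by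
      rw [hx, one_div, inv_pow]
      exact inv_anti₀ (by positivity) h1
    rw [div_eq_mul_inv, mul_assoc]
    gcongr
  have a1 := xR C₁ (by linarith)
  have a2 := xR (7 * B ^ 3) (by linarith)
  have a3 : 7 * B ^ 3 * (x * y) ≤ C₁ * (x * y) := by gcongr
  rw [← hx] at hS
  rw [← hx, ← hy]
  refine ⟨fun θ => ?_, ?_⟩
  · by_cases hX : ∀ i, i ≤ 2 * L → ∀ (η : ℝ) (m : ℕ), m ≤ T ^ i * M →
        ‖∑ n ∈ Ico n₀ m, ee (θ * val h n + η * n)‖ ≤ ((T ^ i * M : ℕ) : ℝ) / (R : ℝ) ^ 4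
    · have := tm_minor hG (by omega) hT hS.wk hnM hR1 hX
      rw [← hy] at this
      nlinarith
    · obtain ⟨i, hi⟩ := not_forall.1 hX
      have hD : (2 : ℝ) ≤ (R : ℝ) ^ 4 := by exact_mod_cast (by omega : 2 ≤ R ^ 4)
      obtain ⟨q, a, β, hq, ha, hqE, hβ, rfl⟩ := (hK n₀ (T ^ i * M) _ θ
        (Nat.mul_pos (by positivity) (by omega)) hD).resolve_left fun h' => hi fun _ => h'
      have e1 : ((R : ℝ) ^ 4) ^ K₀ = E := by rw [hE]; push_cast; rfl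
      rw [e1] at hqE hβ
      have b := fun j (hj : j ≤ 2 * L) => beta_tke (W := T ^ j) (by omega) hE1
        (Nat.one_le_pow _ _ hT1) (Nat.pow_le_pow_right hT1 hj)
        ((Nat.mul_le_mul_right E h16).trans hM1) hβ
      have := tm_major hG (by omega) hT hS (by linarith) x1 hnM hR1 hq (by exact_mod_cast hqE) ha
        (by exact_mod_cast hE') (fun j hj => (b j hj).1) (b 0 (by omega)).2
        (by rw [hM]; push_cast; exact le_rfl)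
      rw [← hy, ← hC₁] at this
      nlinarith
  · have := tm_zero (I := 2 * L) hG (by omega) hT hS hnM hR1 (by exact_mod_cast hM2)
    rw [← hy, ← hC₁] at this
    nlinarith

end Vale.Agent.P042.S
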