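import Vale.Agent.P042.T.GlobT
import Vale.Agent.P042.T.KernT
import Vale.Agent.P042.T.Fin
import Vale.Agent.P042.S.Gro

/-! # P042 T/Main (TASK; helper names end with _tma): assembly.
`e` from `globT k` with `η = 1 / 500`, `δ` from `asym e`.  For `h`: `gro_poly hk hl 1`, `T = ⌈2 B ^ 2⌉₊ ≥ 1`, `K, C` from `kernT`, `A` from `globT`, `b` with `B ≤ 2 ^ b`, `L₀ ≥ max 1 n₀` with `C (1 / 2) ^ L ≤ 1 / 8` for `L ≥ L₀`;
`asym` with `b + A K (natDegree h)`, `L₀`, `16 C`: `B (T ^ (2 L) M) ^ natDegree ≤ 2 ^ b (2 ^ (A L ^ e)) ^ (K natDegree) ≤ N`; `tm_del`; `|A| ≤ N` (`card_le_card`, `Nat.card_Icc`). -/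

namespace Vale.Agent.P042.S

open Finset Polynomial

theorem size_tma {B : ℝ} {b A K d L e X R N : ℕ} (hb : B ≤ 2 ^ b) (hL : 1 ≤ L) (hX : X ≤ R ^ K)
    (hR : R ≤ 2 ^ (A * L ^ e)) (hN : 2 ^ ((b + A * K * d) * L ^ e) ≤ N) : B * (X : ℝ) ^ d ≤ N := by
  have h1 : 1 ≤ L ^ e := Nat.one_le_pow _ _ hL
  have h2 : X ^ d ≤ 2 ^ (A * K * d * L ^ e) :=
    calc X ^ d ≤ ((2 ^ (A * L ^ e)) ^ K) ^ d :=
          Nat.pow_le_pow_left (hX.trans (Nat.pow_le_pow_left hR K)) d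
      _ = _ := by
          rw [← pow_mul, ← pow_mul]
          congr 1
          ring
  have h3 : 2 ^ b * X ^ d ≤ N :=
    calc 2 ^ b * X ^ d ≤ 2 ^ (b * L ^ e) * 2 ^ (A * K * d * L ^ e) :=
          Nat.mul_le_mul (Nat.pow_le_pow_right (by norm_num) (Nat.le_mul_of_pos_right b h1)) h2
      _ = 2 ^ ((b + A * K * d) * L ^ e) := by rw [← pow_add, add_mul]
      _ ≤ N := hN
  have h4 : (2 : ℝ) ^ b * (X : ℝ) ^ d ≤ N := by exact_mod_cast h3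
  exact (mul_le_mul_of_nonneg_right hb (by positivity)).trans h4

theorem half_tma {C : ℝ} (hC : 0 < C) : ∃ L₀ : ℕ, ∀ L, L₀ ≤ L → C * (1 / 2) ^ L ≤ 1 / 8 := by
  obtain ⟨L₀, hL⟩ := exists_pow_lt_of_lt_one (show 0 < 1 / 8 / C by positivity)
    (show (1 / 2 : ℝ) < 1 by norm_num)
  refine ⟨L₀, fun L h => ?_⟩
  have h1 : (1 / 2 : ℝ) ^ L ≤ (1 / 2) ^ L₀ := pow_le_pow_of_le_one (by norm_num) (by norm_num) h
  have h2 := h1.trans hL.le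
  rw [le_div_iff₀ hC] at h2
  linarith

theorem mainT (k : ℕ) : ∃ δ : ℝ, 0 < δ ∧ ∀ h : ℤ[X], 2 ≤ h.natDegree → h.natDegree ≤ k →
    0 < h.leadingCoeff → (∀ q : ℕ, 1 ≤ q → ∃ t : ℤ, (q : ℤ) ∣ h.eval t) → ∃ C : ℝ,
      ∀ (N : ℕ) (A : Finset ℕ), A ⊆ Icc 1 N →
        (∀ a ∈ A, ∀ b ∈ A, ∀ n : ℕ, 1 ≤ n → (a : ℤ) - b = h.eval (n : ℤ) → a = b) →
          (A.card : ℝ) ≤ C * N * Real.exp (-(Real.log N) ^ δ) := by
  obtain ⟨e, he⟩ := globT k (η := 1 / 500) (by norm_num) (by norm_num)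
  obtain ⟨δ, hδ, has⟩ := asym e
  refine ⟨δ, hδ, fun h hk hk' hl hi => ?_⟩
  obtain ⟨n₀, B, hn, hG⟩ := gro_poly hk hl 1
  have hT : 2 * B ^ 2 ≤ (⌈2 * B ^ 2⌉₊ : ℕ) := Nat.le_ceil _
  have hT1 : 1 ≤ ⌈2 * B ^ 2⌉₊ := Nat.ceil_pos.mpr (by have := hG.one; positivity)
  obtain ⟨K, C, hC, hker⟩ := kernT hk hl hG hT
  obtain ⟨A₀, hA₀⟩ := he h (by omega) hk' hi
  obtain ⟨b, hb⟩ := pow_unbounded_of_one_lt B (show (1 : ℝ) < 2 by norm_num)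
  obtain ⟨L₀, hL₀⟩ := half_tma hC
  obtain ⟨C', hC'⟩ := has (b + A₀ * K * h.natDegree) (L₀ + n₀ + 1) (16 * C)
  refine ⟨C', fun N A hA hf => hC' N _ ?_ fun L hL hN => ?_⟩
  · have := card_le_card hA
    rw [Nat.card_Icc, Nat.add_sub_cancel] at this
    exact_mod_cast this
  · obtain ⟨R, hR1, hR2, hw⟩ := hA₀ L (by omega)
    have hLR : L < R := Nat.lt_two_pow_self.trans_le hR1
    obtain ⟨E, M, hM, hTM, hs⟩ := hker L R (by omega) hR1 (by omega)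
    obtain ⟨w, hw⟩ := hw E
    obtain ⟨h1, h2⟩ := hs w hw
    have h3 := tm_del hG hT1 hM hA (size_tma hb.le (by omega) hTM hR2 hN)
      (fun a ha b hb n hn' => hf a ha b hb n (hn.trans hn')) (by positivity) h1
    have h4 := hL₀ L (by omega)
    have h5 : (0 : ℝ) < (3 / 2) ^ (2 * L) := by positivity
    have h6 : (0 : ℝ) ≤ A.card := Nat.cast_nonneg _
    have h7 : (1 / 8 : ℝ) * (3 / 2) ^ (2 * L) ≤ (Tm h w n₀ M ⌈2 * B ^ 2⌉₊ R (2 * L) 0).re :=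
      (mul_le_mul_of_nonneg_right (by linarith) h5.le).trans h2
    have h8 := (mul_le_mul_of_nonneg_left h7 h6).trans h3
    refine le_of_mul_le_mul_right ?_ h5
    linarith

end Vale.Agent.P042.S
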