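import Vale.Agent.P042.T.Defs
import Vale.Agent.P042.S.Hua

/-! # P042 T/Ball (TASK; helper names end with _tba): exponential sums over classes of a root.
`c` from `hua k`.  `τ l = (taylor z h).coeff l`; `m` is the least `i` with `p ^ j ∣ τ l * p ^ (i l)` for all `l ≥ 1` (`Nat.find`; `i = j` works).  `P i = C a * (taylor z h).comp (C (p ^ i) * X)` has the coefficients `a * τ l * p ^ (i l)` (`comp_C_mul_X_coeff`) and
`ph P 1 q n = ph h a q (z + p ^ i n)` (`taylor_eval`).  For `i ≥ m` all coefficients of `P i` are divisible by `p ^ j` (`τ 0 = h z`), so the phases are `1` (`ph_congr`, `eval_eq_sum_range`, `av_const`).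
For `i < m` apply `hua` with `t = p ^ (m - i)`: if `p ^ j ∣ s * a * τ l * p ^ (i l)` for all `l ≥ 1` and `s = p ^ v s'` with `p ∤ s'`, then `p ^ j ∣ τ l * p ^ ((i + v) l)`, so `m ≤ i + v` and `p ^ (m - i) ≤ p ^ v ≤ s`.
Last part: `l = natDegree h`, `τ l = leadingCoeff h ≠ 0` (`leadingCoeff_taylor`, `natDegree_taylor`), `Int.le_of_dvd`. -/

namespace Vale.Agent.P042.S

open Finset Polynomial

theorem coeff_tba (h : ℤ[X]) (z a r : ℤ) (l : ℕ) :
    (C a * (taylor z h).comp (C r * X)).coeff l = a * ((taylor z h).coeff l * r ^ l) := by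
  rw [coeff_C_mul, comp_C_mul_X_coeff]

theorem gb_tba (h : ℤ[X]) (z a : ℤ) (p j i : ℕ) :
    Gb h z a p j i = av (p ^ j) (ph (C a * (taylor z h).comp (C ((p : ℤ) ^ i) * X)) 1 (p ^ j)) := by
  rw [Gb]
  refine congrArg (av (p ^ j)) (funext fun n => ph_congr ?_)
  rw [eval_mul, eval_C, eval_comp, taylor_eval, eval_mul, eval_C, eval_X, one_mul, Nat.cast_pow p i,
    add_comm, sub_self]
  exact dvd_zero _

theorem one_tba {P : ℤ[X]} {q : ℕ} (hq : 0 < q) (h : ∀ l, (q : ℤ) ∣ P.coeff l) :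
    av q (ph P 1 q) = 1 := by
  have e : ph P 1 q = fun _ => 1 := by
    funext n
    have h1 : ph P 1 q n = ph P 0 q n := by
      refine ph_congr ?_
      rw [one_mul, zero_mul, sub_zero, eval_eq_sum_range]
      exact dvd_sum fun l _ => (h l).mul_right _
    rw [h1, ph, zero_mul, Int.cast_zero, zero_div, ee_zero]
  rw [e, av_const hq]

theorem ball (k : ℕ) : ∃ c : ℝ, 0 < c ∧ c ≤ 1 ∧ ∀ h : ℤ[X], 1 ≤ h.natDegree → h.natDegree ≤ k →
    ∀ p : ℕ, p.Prime → ∀ (j : ℕ) (z a : ℤ), ((p ^ j : ℕ) : ℤ) ∣ h.eval z → IsCoprime a p →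
      ∃ m : ℕ, m ≤ j ∧ (∀ i, m ≤ i → Gb h z a p j i = 1) ∧
        (∀ i, i < m → ‖Gb h z a p j i‖ ≤ 2 * ((p : ℝ) ^ (-c)) ^ (m - i)) ∧
        (p : ℤ) ^ j ≤ |h.leadingCoeff| * (p : ℤ) ^ (k * m) := by
  classical
  obtain ⟨c, c0, c1, hc⟩ := hua k
  refine ⟨c, c0, c1, fun h h1 hk p hp j z a hz ha => ?_⟩
  have hq : 0 < p ^ j := pow_pos hp.pos j
  have p0 : (0 : ℤ) < p := by exact_mod_cast hp.pos
  have hj : ∀ l, 1 ≤ l → (p : ℤ) ^ j ∣ (taylor z h).coeff l * (p : ℤ) ^ (j * l) := fun l hl =>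
    (pow_dvd_pow _ (Nat.le_mul_of_pos_right j hl)).mul_left _
  have ex : ∃ i, ∀ l, 1 ≤ l → (p : ℤ) ^ j ∣ (taylor z h).coeff l * (p : ℤ) ^ (i * l) := ⟨j, hj⟩
  have hm := Nat.find_spec ex
  refine ⟨Nat.find ex, Nat.find_min' ex hj, fun i hi => ?_, fun i hi => ?_, ?_⟩
  · rw [gb_tba]
    refine one_tba hq fun l => ?_
    rw [coeff_tba]
    refine Dvd.dvd.mul_left ?_ a
    rcases Nat.eq_zero_or_pos l with rfl | hl
    · rw [taylor_coeff_zero]
      exact hz.mul_right _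
    · rw [← pow_mul, Nat.cast_pow]
      exact (hm l hl).trans (mul_dvd_mul_left _ (pow_dvd_pow _ (Nat.mul_le_mul_right l hi)))
  · have p1 : (1 : ℝ) ≤ p := by exact_mod_cast hp.pos
    rw [gb_tba, Real.rpow_pow_comm (by positivity)]
    refine hc _ (natDegree_le_iff_coeff_eq_zero.2 fun l hl => ?_) _ hq _ (one_le_pow₀ p1)
      fun s hs H => ?_
    · rw [coeff_tba, coeff_eq_zero_of_natDegree_lt (by rw [natDegree_taylor]; omega), zero_mul,
        mul_zero]
    · obtain ⟨v, s', hs', rfl⟩ := Nat.exists_eq_pow_mul_and_not_dvd hs.ne' p hp.ne_one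
      have hco : IsCoprime ((p : ℤ) ^ j) (s' * a) :=
        ((Nat.isCoprime_iff_coprime.2 (hp.coprime_iff_not_dvd.2 hs')).mul_right ha.symm).pow_left
      have h2 : Nat.find ex ≤ i + v := Nat.find_min' ex fun l hl => by
        have h3 := H l hl
        rw [coeff_tba, Nat.cast_pow, Nat.cast_mul, Nat.cast_pow, show (p : ℤ) ^ v * s' *
          (a * ((taylor z h).coeff l * (p ^ i) ^ l)) = s' * a * ((taylor z h).coeff l *
            p ^ (i * l + v)) by ring] at h3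
        refine (hco.dvd_of_dvd_mul_left h3).trans (mul_dvd_mul_left _ (pow_dvd_pow _ ?_))
        rw [add_mul]
        exact Nat.add_le_add_left (Nat.le_mul_of_pos_right v hl) _
      have h4 : p ^ (Nat.find ex - i) ≤ p ^ v * s' :=
        (Nat.pow_le_pow_right hp.pos (by omega)).trans
          (Nat.le_mul_of_pos_right _ (Nat.pos_of_mul_pos_left hs))
      exact_mod_cast h4
  · have h0 : h.leadingCoeff ≠ 0 := leadingCoeff_ne_zero.2 fun e => by simp [e] at h1
    have h2 := hm _ h1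
    rw [coeff_taylor_natDegree] at h2
    refine Int.le_of_dvd (mul_pos (abs_pos.2 h0) (pow_pos p0 _)) ?_
    refine h2.trans (mul_dvd_mul ((dvd_abs _ _).2 dvd_rfl) (pow_dvd_pow _ ?_))
    rw [mul_comm]
    exact Nat.mul_le_mul_right _ hk

end Vale.Agent.P042.S
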