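import Vale.Agent.P042.T.Defs

/-! # P042 T/DTw (TASK; helper names end with _tdt): the local differences.
`DT_lw`: `bl z p i` has the period `p ^ i`; `∑ t < p, bl z p (i + 1) (n + p ^ i t) = p * bl z p i n`: if `n - z = p ^ i u` then `p ^ (i + 1) ∣ p ^ i (u + t)` for exactly one `t < p` (or `sum_perm`, `av_dvd`); model: S/Odd.lean, S/OddR.lean.
`DT_tm`: `av_dvd (ph_per h a _)` with `e = p ^ (i + 1)` and `e = p ^ i`.  `DT_tm0`: `av_shift`.  `norm_Gb`: `norm_av_le`, `norm_ph`. -/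

namespace Vale.Agent.P042.S

open Finset Polynomial

variable {h : ℤ[X]} {θ : ℕ → ℝ} {J : ℕ → ℕ} {z : ℤ}

theorem add_tdt {p i : ℕ} {m : ℤ} (hm : ((p ^ i : ℕ) : ℤ) ∣ m) (n : ℤ) :
    bl z p i (n + m) = bl z p i n := by
  have h1 : n + m - z = n - z + m := by ring
  simp only [bl, h1, dvd_add_left hm]

theorem bd_tdt (p i : ℕ) (n : ℤ) : 0 ≤ bl z p i n ∧ bl z p i n ≤ (p ^ i : ℕ) := by
  unfold bl
  split_ifs
  exacts [⟨Nat.cast_nonneg _, le_rfl⟩, ⟨le_rfl, Nat.cast_nonneg _⟩]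

theorem sum_tdt {p : ℕ} (hp : 0 < p) (i : ℕ) (n : ℤ) :
    ∑ t ∈ range p, bl z p (i + 1) (n + ((p ^ i : ℕ) : ℤ) * t) = p * bl z p i n := by
  have hp' : (0 : ℤ) < p := by exact_mod_cast hp
  by_cases h : ((p ^ i : ℕ) : ℤ) ∣ n - z
  · obtain ⟨u, hu⟩ := h
    have h1 : ∀ t ∈ range p, ((p ^ (i + 1) : ℕ) : ℤ) ∣ n + ((p ^ i : ℕ) : ℤ) * t - z ↔
        t = ((-u) % p).toNat := fun t ht => by
      have h2 : n + ((p ^ i : ℕ) : ℤ) * t - z = ((p ^ i : ℕ) : ℤ) * (t - -u) := by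
        linear_combination hu
      have h3 := Int.emod_nonneg (-u) hp'.ne'
      have h4 : (t : ℤ) < p := by exact_mod_cast mem_range.1 ht
      rw [h2, pow_succ, Nat.cast_mul, mul_dvd_mul_iff_left (by positivity), ← Int.modEq_iff_dvd,
        Int.ModEq, Int.emod_eq_of_lt (Int.natCast_nonneg t) h4]
      omega
    have h5 : ((-u) % p).toNat ∈ range p := by
      have := Int.emod_lt_of_pos (-u) hp'
      rw [mem_range]
      omega
    simp only [bl]
    rw [sum_eq_single_of_mem _ h5 fun t ht hne => if_neg fun h6 => hne ((h1 t ht).1 h6),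
      if_pos ((h1 _ h5).2 rfl), if_pos ⟨u, hu⟩, pow_succ', Nat.cast_mul]
  · rw [bl, if_neg h, mul_zero]
    refine sum_eq_zero fun t _ => if_neg fun h1 => h ?_
    have h2 : n + ((p ^ i : ℕ) : ℤ) * t - z = n - z + ((p ^ i : ℕ) : ℤ) * t := by ring
    rw [h2] at h1
    exact (dvd_add_left (dvd_mul_right _ _)).1
      ((Int.natCast_dvd_natCast.2 (pow_dvd_pow p i.le_succ)).trans h1)

theorem av_tdt {p i j : ℕ} (hp : 0 < p) (hij : i ≤ j) (a : ℤ) :
    (av (p ^ j) fun n => bl z p i n * ph h a (p ^ j) n) = Gb h z a p j i := by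
  rw [Gb, ← av_dvd (ph_per h a _) (pow_pos hp i) (pow_dvd_pow p hij) z]
  refine congrArg _ (funext fun n => ?_)
  rw [bl]
  split_ifs <;> simp

theorem DT_lw (h0 : ∀ p, 0 ≤ θ p) (h1 : ∀ p, θ p ≤ 1) : LW (DT θ J z) := by
  refine ⟨fun p n => rfl, fun p i n => ?_, fun p hp i n => ?_, fun p hp i n => ?_⟩
  · rcases i with _ | i
    · rfl
    · simp only [DT]
      rw [add_tdt dvd_rfl, add_tdt (Int.natCast_dvd_natCast.2 (pow_dvd_pow p i.le_succ))]
  · simp only [DT]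
    split_ifs
    · simp only [add_tdt (dvd_mul_right _ _), ← mul_sum, sum_sub_distrib, sum_tdt hp.pos]
      simp
    · simp
  · rcases i with _ | i
    · simp [DT]
    · simp only [DT]
      split_ifs
      · have a1 := bd_tdt (z := z) p (i + 1) n
        have a2 := bd_tdt (z := z) p i n
        have a3 : ((p ^ i : ℕ) : ℝ) ≤ (p ^ (i + 1) : ℕ) :=
          Nat.cast_le.2 (Nat.pow_le_pow_right hp.pos i.le_succ)
        rw [abs_mul, abs_of_nonneg (pow_nonneg (h0 p) _)]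
        exact (mul_le_of_le_one_left (abs_nonneg _) (pow_le_one₀ (h0 p) (h1 p))).trans
          (abs_le.2 ⟨by linarith, by linarith⟩)
      · simp

theorem DT_tm0 (p j : ℕ) (a : ℤ) :
    (av (p ^ j) fun n => DT θ J z p 0 n * ph h a (p ^ j) n) = Gb h z a p j 0 := by
  have h1 := av_shift (ph_per h a (p ^ j)) z
  simpa [DT, Gb, add_comm] using h1.symm

theorem DT_tm {p i j : ℕ} (hp : p.Prime) (hij : i < j) (a : ℤ) :
    (av (p ^ j) fun n => DT θ J z p (i + 1) n * ph h a (p ^ j) n) =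
      if i < J p then (θ p : ℂ) ^ (i + 1) * (Gb h z a p j (i + 1) - Gb h z a p j i) else 0 := by
  simp only [DT]
  split_ifs
  · rw [← av_tdt hp.pos hij, ← av_tdt hp.pos hij.le]
    simp only [av, ← sub_div, ← sum_sub_distrib, ← mul_div_assoc, mul_sum]
    refine congrArg (· / _) (sum_congr rfl fun n _ => ?_)
    push_cast
    ring
  · simp [av]

theorem norm_Gb (p j i : ℕ) (a : ℤ) : ‖Gb h z a p j i‖ ≤ 1 := by
  exact norm_av_le zero_le_one (fun n => (norm_ph _ _ _ _).le) _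

end Vale.Agent.P042.S
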