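import Vale.Agent.P042.T.Defs

/-! # P042 T/Gw: products of local differences. -/

namespace Vale.Agent.P042.S

open Finset Polynomial

variable {h : ℤ[X]} {D : ℕ → ℕ → ℤ → ℝ}

theorem gw_powW (hL : LW D) {p : ℕ} (hp : p.Prime) (i : ℕ) (n : ℤ) :
    gw D (p ^ i) n = D p i n := by
  unfold gw
  rw [hp.factorization_pow, Finsupp.prod_single_index (hL.zero p n)]

theorem gw_perW (hL : LW D) (d : ℕ) : Function.Periodic (gw D d) (d : ℤ) := by
  intro n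
  unfold gw Finsupp.prod
  refine prod_congr rfl fun p _ => ?_
  exact per_dvd_ga (hL.per p _) (Int.natCast_dvd_natCast.2 (Nat.ordProj_dvd d p)) n

theorem gw_bdW (hL : LW D) {d : ℕ} (hd : 0 < d) (n : ℤ) : |gw D d n| ≤ d := by
  have h1 : (d : ℝ) = ∏ p ∈ d.factorization.support, ((p ^ d.factorization p : ℕ) : ℝ) := by
    rw [← Nat.cast_prod]
    exact congrArg _ (Nat.prod_factorization_pow_eq_self hd.ne').symm
  rw [h1]
  unfold gw Finsupp.prod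
  rw [abs_prod]
  exact prod_le_prod (fun _ _ => abs_nonneg _) fun p hp =>
    hL.bd p (Nat.prime_of_mem_primeFactors hp) _ n

theorem gw_vanW (hL : LW D) {d q : ℕ} (hd : 0 < d) (hq : 0 < q) (hdq : ¬ d ∣ q) (a : ℤ) :
    (av (d * q) fun n => gw D d n * ph h a q n) = 0 := by
  rw [← Nat.factorization_prime_le_iff_dvd hd.ne' hq.ne'] at hdq
  push Not at hdq
  obtain ⟨p, hp, hlt⟩ := hdq
  obtain ⟨i, hi⟩ : ∃ i, d.factorization p = i + 1 := ⟨d.factorization p - 1, by omega⟩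
  obtain ⟨d', hd', hcd⟩ : ∃ d', d = p ^ (i + 1) * d' ∧ p.Coprime d' :=
    ⟨ordCompl[p] d, by rw [← hi]; exact (Nat.ordProj_mul_ordCompl_eq_self d p).symm,
      Nat.coprime_ordCompl hp hd.ne'⟩
  obtain ⟨j, q', hj, hq', hcq⟩ : ∃ j q', j ≤ i ∧ q = p ^ j * q' ∧ p.Coprime q' :=
    ⟨q.factorization p, ordCompl[p] q, by omega, (Nat.ordProj_mul_ordCompl_eq_self q p).symm,
      Nat.coprime_ordCompl hp hq.ne'⟩
  have hF : Function.Periodic (fun n => (gw D d n : ℂ) * ph h a q n) ((d * q : ℕ) : ℤ) := by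
    intro n
    have h1 := per_dvd_ga (gw_perW hL d) (Int.natCast_dvd_natCast.2 (dvd_mul_right d q)) n
    have h2 := per_dvd_ga (ph_per h a q) (Int.natCast_dvd_natCast.2 (dvd_mul_left q d)) n
    simp only [h1, h2]
  refine av_kill hF hp.pos ((p ^ i * (d' * q') : ℕ) : ℤ) fun n => ?_
  have hqm : q ∣ p ^ i * (d' * q') := by
    rw [hq']
    exact mul_dvd_mul (pow_dvd_pow p hj) (dvd_mul_left q' d')
  have hdm : d' ∣ p ^ i * (d' * q') := (dvd_mul_right d' q').mul_left _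
  have hg : Function.Periodic (fun t : ℤ => (D p (i + 1) (n + ((p ^ i : ℕ) : ℤ) * t) : ℂ))
      (p : ℤ) := by
    intro t
    have := hL.per p (i + 1) (n + ((p ^ i : ℕ) : ℤ) * t)
    have e : n + ((p ^ i : ℕ) : ℤ) * (t + p) =
        n + ((p ^ i : ℕ) : ℤ) * t + ((p ^ (i + 1) : ℕ) : ℤ) := by
      push_cast
      ring
    simp only [e, this]
  have hco : IsCoprime ((d' * q' : ℕ) : ℤ) (p : ℤ) :=
    Nat.isCoprime_iff_coprime.2 (Nat.Coprime.mul_right hcd hcq).symm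
  have hs := sum_perm hg hco 0
  have hm : ∑ t ∈ range p, (D p (i + 1) (n + ((p ^ i : ℕ) : ℤ) * t) : ℂ) = 0 := by
    rw [← Complex.ofReal_sum, hL.mart p hp i n, Complex.ofReal_zero]
  have ht : ∀ t : ℕ, (gw D d (n + ((p ^ i * (d' * q') : ℕ) : ℤ) * t) : ℂ) *
      ph h a q (n + ((p ^ i * (d' * q') : ℕ) : ℤ) * t) =
      (D p (i + 1) (n + ((p ^ i : ℕ) : ℤ) * (0 + ((d' * q' : ℕ) : ℤ) * t)) : ℂ) *
        (gw D d' n * ph h a q n) := fun t => by
    have h1 := per_dvd_ga (gw_perW hL d') ((Int.natCast_dvd_natCast.2 hdm).mul_right (t : ℤ)) n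
    have h2 := per_dvd_ga (ph_per h a q) ((Int.natCast_dvd_natCast.2 hqm).mul_right (t : ℤ)) n
    have e : n + ((p ^ i : ℕ) : ℤ) * (0 + ((d' * q' : ℕ) : ℤ) * t) =
        n + ((p ^ i * (d' * q') : ℕ) : ℤ) * t := by
      push_cast
      ring
    rw [h2, e]
    conv_lhs => rw [hd', gw_coprime (hcd.pow_left _), gw_powW hL hp, h1]
    push_cast
    ring
  simp only [ht]
  rw [← sum_mul, hs, hm, zero_mul]

theorem split_glW (hL : LW D) {q₁ q₂ : ℕ} (hq : q₁.Coprime q₂) (h₁ : 0 < q₁) (h₂ : 0 < q₂)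
    {a a₁ a₂ : ℤ} (H : ∀ n, ph h a (q₁ * q₂) n = ph h a₁ q₁ n * ph h a₂ q₂ n) {d₁ d₂ : ℕ}
    (hd₁ : d₁ ∈ q₁.divisors) (hd₂ : d₂ ∈ q₂.divisors) :
    (av (q₁ * q₂) fun n => gw D (d₁ * d₂) n * ph h a (q₁ * q₂) n) =
      (av q₁ fun n => gw D d₁ n * ph h a₁ q₁ n) * av q₂ fun n => gw D d₂ n * ph h a₂ q₂ n := by
  have e₁ := Nat.dvd_of_mem_divisors hd₁
  have e₂ := Nat.dvd_of_mem_divisors hd₂
  rw [← av_crt (fun n => by rw [per_dvd_gl (gw_perW hL d₁) e₁ n, ph_per h a₁ q₁ n])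
    (fun n => by rw [per_dvd_gl (gw_perW hL d₂) e₂ n, ph_per h a₂ q₂ n]) hq h₁ h₂]
  congr 1
  funext n
  rw [H, gw_coprime (Nat.Coprime.coprime_dvd_right e₂ (Nat.Coprime.coprime_dvd_left e₁ hq))]
  push_cast
  ring

end Vale.Agent.P042.S
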