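import Vale.Agent.P042.T.Defs

/-! # P042 T/Seq (TASK; helper names end with _tsq): sectors and geometric mixtures.
`Sec.mul`: in both cases of `Sec Γ ε y` one has `‖y‖ ≤ Γ`; `x y - s₁ s₂ = (x - s₁) y + s₁ (y - s₂)` and `‖y‖ ≤ Γ₂ s₂`.
`seq_sec`: `Z n = θ ^ n G n + (1 - θ) ∑ i < n, θ ^ i G i` (induction); for `m ≤ n` this is `θ ^ m + (1 - θ) ∑ i < m, θ ^ i G i` (induction from `m`); `∑ i < m, ρ ^ (m - i) ≤ ρ / (1 - ρ₁)` (induction on `m` after `sum_range_reflect`, or `geom_sum_Ico_le_of_lt_one`).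
For `n ≤ m`: `(θ ρ) ^ (m - i) ≤ (θ ρ) ^ (n - i)`.  Sum of norms: terms with `i ≥ m` vanish, `‖G i‖ ≤ 2 (θ ρ) ^ (m - i)` also for `i = m`, the term `i < m` is at most `4 θ ^ m ρ ^ (m - i - 1)`, `‖G 0‖ ≤ 2 θ ^ m`. -/

namespace Vale.Agent.P042.S

open Finset Polynomial

theorem nrm_tsq {Γ s : ℝ} {x : ℂ} (h0 : 0 ≤ s) (h : ‖x - s‖ ≤ (Γ - 1) * s) : ‖x‖ ≤ Γ * s := by
  have := norm_add_le (x - s) s
  rw [sub_add_cancel, Complex.norm_of_nonneg h0] at this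
  linarith

theorem bd_tsq {Γ ε : ℝ} {x : ℂ} (h1 : 1 ≤ Γ) (hε : ε ≤ 1) (hx : Sec Γ ε x) : ‖x‖ ≤ Γ := by
  rcases hx with h | ⟨s, a, b, c⟩
  · exact h.trans (mul_le_of_le_one_right (by linarith) hε)
  · exact (nrm_tsq a c).trans (mul_le_of_le_one_right (by linarith) b)

theorem Sec.mul {Γ₁ Γ₂ ε : ℝ} {x y : ℂ} (h1 : 1 ≤ Γ₁) (h2 : 1 ≤ Γ₂) (h0 : 0 ≤ ε) (hε : ε ≤ 1)
    (hx : Sec Γ₁ ε x) (hy : Sec Γ₂ ε y) : Sec (Γ₁ * Γ₂) ε (x * y) := by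
  have b1 := bd_tsq h1 hε hx
  have b2 := bd_tsq h2 hε hy
  rcases hx with hx | ⟨s, a, b, c⟩
  · exact Or.inl ((norm_mul_le_of_le hx b2).trans_eq (by ring))
  rcases hy with hy | ⟨t, a', b', c'⟩
  · exact Or.inl ((norm_mul_le_of_le b1 hy).trans_eq (by ring))
  refine Or.inr ⟨s * t, mul_nonneg a a', mul_le_one₀ b a' b', ?_⟩
  rw [show x * y - ((s * t : ℝ) : ℂ) = (x - s) * y + s * (y - t) by push_cast; ring]
  exact (norm_add_le_of_le (norm_mul_le_of_le c (nrm_tsq a' c'))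
    (norm_mul_le_of_le (Complex.norm_of_nonneg a).le c')).trans_eq (by ring)

theorem Sec.mono {Γ Γ' ε ε' : ℝ} {x : ℂ} (hx : Sec Γ ε x) (h0 : 0 ≤ Γ) (h1 : Γ ≤ Γ') (h2 : 0 ≤ ε)
    (h3 : ε ≤ ε') : Sec Γ' ε' x := by
  rcases hx with hx | ⟨s, a, b, c⟩
  · exact Or.inl (hx.trans (mul_le_mul h1 h3 h2 (h0.trans h1)))
  · exact Or.inr ⟨s, a, b, c.trans (mul_le_mul_of_nonneg_right (by linarith) a)⟩

theorem sec_one (ε : ℝ) : Sec 1 ε 1 := Or.inr ⟨1, zero_le_one, le_rfl, by simp⟩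

theorem Sec.fin {Γ ε η : ℝ} {x : ℂ} (hx : Sec Γ ε x) (hΓ : Γ ≤ 1 + η) (h0 : 0 ≤ η) (h1 : η ≤ 1)
    (hε : 0 ≤ ε) : ∃ s : ℝ, 0 ≤ s ∧ s ≤ 1 ∧ ‖x - s‖ ≤ η * s + 2 * ε := by
  rcases hx with hx | ⟨s, a, b, c⟩
  · refine ⟨0, le_rfl, zero_le_one, ?_⟩
    rw [Complex.ofReal_zero, sub_zero, mul_zero, zero_add]
    exact hx.trans (mul_le_mul_of_nonneg_right (by linarith) hε)
  · refine ⟨s, a, b, c.trans ?_⟩
    have : (Γ - 1) * s ≤ η * s := mul_le_mul_of_nonneg_right (by linarith) a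
    linarith

theorem seq_sec {G : ℕ → ℂ} {m : ℕ} {θ ρ ρ₁ : ℝ} (hθ0 : 0 < θ) (hθ1 : θ ≤ 1) (hρ0 : 0 ≤ ρ)
    (hρ : ρ ≤ ρ₁) (hρ₁ : ρ₁ < 1) (h1 : ∀ i, m ≤ i → G i = 1)
    (h2 : ∀ i, i < m → ‖G i‖ ≤ 2 * (θ * ρ) ^ (m - i)) (h3 : ∀ i, ‖G i‖ ≤ 1) (n : ℕ) :
    (m ≤ n → Sec (1 + (1 - θ) * (6 / (1 - ρ₁)) * ρ) 0
      (G 0 + ∑ i ∈ range n, (θ : ℂ) ^ (i + 1) * (G (i + 1) - G i))) ∧
    (n ≤ m → ‖G 0 + ∑ i ∈ range n, (θ : ℂ) ^ (i + 1) * (G (i + 1) - G i)‖ ≤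
      (1 + (1 - θ) * (6 / (1 - ρ₁)) * ρ) * θ ^ n) ∧
    (m ≤ n → ‖G 0‖ + ∑ i ∈ range n, ‖(θ : ℂ) ^ (i + 1) * (G (i + 1) - G i)‖ ≤
      6 / (1 - ρ₁) * θ ^ m) := by
  obtain ⟨c, hc⟩ : ∃ c, c = (1 - ρ₁)⁻¹ := ⟨_, rfl⟩
  have hρ1 : ρ < 1 := hρ.trans_lt hρ₁
  have c1 : 1 ≤ c := hc ▸ (one_le_inv₀ (by linarith)).2 (by linarith)
  have hU : ∀ k, ∑ j ∈ range k, ρ ^ (k - 1 - j) ≤ c := fun k => by
    rw [sum_range_reflect (fun j => ρ ^ j) k, hc]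
    refine ((summable_geometric_of_lt_one hρ0 hρ1).sum_le_tsum _ fun _ _ => by positivity).trans ?_
    rw [tsum_geometric_of_lt_one hρ0 hρ1]
    exact inv_anti₀ (by linarith) (by linarith)
  have p0 : 0 ≤ θ * ρ := by positivity
  have p1 : θ * ρ ≤ 1 := mul_le_one₀ hθ1 hρ0 hρ1.le
  have nθ : ∀ k, ‖(θ : ℂ) ^ k‖ = θ ^ k := fun k => by rw [norm_pow, Complex.norm_of_nonneg hθ0.le]
  have hG : ∀ i k, i + k ≤ m → ‖G i‖ ≤ 2 * (θ * ρ) ^ k := fun i k h => by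
    rcases Nat.eq_zero_or_pos k with rfl | hk
    · linarith [h3 i, pow_zero (θ * ρ)]
    · exact (h2 i (by omega)).trans
        (mul_le_mul_of_nonneg_left (pow_le_pow_of_le_one p0 p1 (by omega)) two_pos.le)
  have hZ : ∀ k, G 0 + ∑ i ∈ range k, (θ : ℂ) ^ (i + 1) * (G (i + 1) - G i) =
      θ ^ k * G k + (1 - θ) * ∑ i ∈ range k, (θ : ℂ) ^ i * G i := fun k => by
    induction k with
    | zero => simp
    | succ k ih =>
      rw [sum_range_succ, ← add_assoc, ih, sum_range_succ]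
      ring
  have hK : ∀ k ≤ m, ‖(1 - θ) * ∑ i ∈ range k, (θ : ℂ) ^ i * G i‖ ≤
      (1 - θ) * (6 * c) * ρ * θ ^ k := fun k hk => by
    have a1 : ‖∑ i ∈ range k, (θ : ℂ) ^ i * G i‖ ≤ 2 * θ ^ k * ρ * c := by
      refine (norm_sum_le_of_le _ fun i hi => ?_).trans
        ((mul_sum _ _ _).symm.trans_le (mul_le_mul_of_nonneg_left (hU k) (by positivity)))
      obtain ⟨l, rfl⟩ := Nat.exists_eq_add_of_lt (mem_range.1 hi)
      rw [show i + l + 1 - 1 - i = l by omega]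
      exact (norm_mul_le_of_le (nθ i).le (hG i (l + 1) hk)).trans_eq (by ring)
    have a2 : ‖(1 - θ : ℂ)‖ ≤ 1 - θ := by
      rw [← Complex.ofReal_one, ← Complex.ofReal_sub, Complex.norm_of_nonneg (by linarith)]
    have a3 : 0 ≤ (1 - θ) * (θ ^ k * ρ * c) := mul_nonneg (by linarith) (by positivity)
    linarith [norm_mul_le_of_le a2 a1]
  have hz : ∀ i, m ≤ i → (θ : ℂ) ^ (i + 1) * (G (i + 1) - G i) = 0 := fun i hi => by
    rw [h1 i hi, h1 (i + 1) (by omega), sub_self, mul_zero]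
  rw [div_eq_mul_inv, ← hc]
  refine ⟨fun h => Or.inr ⟨θ ^ m, by positivity, pow_le_one₀ hθ0.le hθ1, ?_⟩, fun h => ?_,
    fun h => ?_⟩
  · rw [← sum_subset (range_subset_range.2 h) fun i _ hi => hz i (by simpa using hi), hZ,
      h1 m le_rfl, mul_one, Complex.ofReal_pow, add_sub_cancel_left, add_sub_cancel_left]
    exact hK m le_rfl
  · rw [hZ]
    exact (norm_add_le_of_le (norm_mul_le_of_le (nθ n).le (h3 n)) (hK n h)).trans_eq (by ring)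
  · rw [← sum_subset (range_subset_range.2 h) fun i _ hi => by
      rw [hz i (by simpa using hi), norm_zero]]
    have a1 : ∑ i ∈ range m, ‖(θ : ℂ) ^ (i + 1) * (G (i + 1) - G i)‖ ≤ 4 * θ ^ m * c := by
      refine (sum_le_sum fun i hi => ?_).trans
        ((mul_sum _ _ _).symm.trans_le (mul_le_mul_of_nonneg_left (hU m) (by positivity)))
      obtain ⟨l, rfl⟩ := Nat.exists_eq_add_of_lt (mem_range.1 hi)
      rw [show i + l + 1 - 1 - i = l by omega]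
      exact (norm_mul_le_of_le (nθ (i + 1)).le (norm_sub_le_of_le (hG (i + 1) l (by omega))
        (hG i l (by omega)))).trans_eq (by ring)
    have a2 := hG 0 m (by omega)
    have a3 : (θ * ρ) ^ m ≤ θ ^ m := pow_le_pow_left₀ p0 (mul_le_of_le_one_right hθ0.le hρ1.le) m
    have a4 : θ ^ m ≤ θ ^ m * c := le_mul_of_one_le_right (by positivity) c1
    linarith

end Vale.Agent.P042.S
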