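import Vale.Agent.P042.T.Defs
import Vale.Agent.P042.S.Arcs
import Vale.Agent.P042.S.Minor

/-! # P042 T/Arc: major and minor arcs for periodic bounded weights. -/

namespace Vale.Agent.P042.S

open Finset Polynomial

variable {h : ℤ[X]} {B : ℝ} {w : ℕ → ℤ → ℝ} {k n₀ : ℕ} {H : ℕ → ℤ}

theorem per_acW (hw : Wk w) {d q L : ℕ} (hd : d ∣ L) (hq : q ∣ L) (a : ℤ) :
    Function.Periodic (fun n => (w d n : ℂ) * ph h a q n) (L : ℤ) := by
  obtain ⟨x, hx⟩ := hd
  obtain ⟨y, hy⟩ := hq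
  intro n
  have e1 : w d (n + L) = w d n := by
    have := (hw.per d).nat_mul x n
    rwa [hx, Nat.cast_mul, mul_comm (d : ℤ)]
  have e2 : ph h a q (n + L) = ph h a q n := by
    have := (ph_per h a q).nat_mul y n
    rwa [hy, Nat.cast_mul, mul_comm (q : ℤ)]
  simp only [e1, e2]

theorem majorW (hw : Wk w) (hG : Gro (val h) k n₀ B) {M R q : ℕ} (hM : n₀ ≤ M) (hq : 0 < q)
    (a : ℤ) (β : ℝ) :
    ‖Tk h w n₀ M R (a / q + β) - Sg h w R q a *
      ∑ n ∈ Ico n₀ M, Fw (val h) M β n‖ ≤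
      2 * (R : ℝ) ^ 3 * q * (7 * B ^ 2 * (M : ℝ) ^ (k - 1) * (1 + |β| * (M : ℝ) ^ k)) := by
  set V := 7 * B ^ 2 * (M : ℝ) ^ (k - 1) * (1 + |β| * (M : ℝ) ^ k) with hV
  have hV0 : 0 ≤ V := by positivity
  rw [tk_ac, Sg, sum_mul, ← sum_sub_distrib]
  refine (norm_sum_le _ _).trans ?_
  have key : ∀ d ∈ Icc 1 R, ‖∑ n ∈ Ico n₀ M, (w d n * ph h a q n) * Fw (val h) M β n -
      (av (d * q) fun n => w d n * ph h a q n) * ∑ n ∈ Ico n₀ M, Fw (val h) M β n‖ ≤
      2 * (R : ℝ) ^ 2 * q * V := by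
    intro d hd
    obtain ⟨hd0, hdR⟩ := mem_Icc.1 hd
    have hdR' : (d : ℝ) ≤ R := by exact_mod_cast hdR
    have hp := per_acW (h := h) hw (dvd_mul_right d q) (dvd_mul_left q d) a
    have hb : ∀ n, ‖(w d n : ℂ) * ph h a q n‖ ≤ d := fun n => by
      rw [norm_mul, norm_ph, mul_one, Complex.norm_real]
      exact hw.bd d hd0 n
    have h1 := abel (fun n => (w d n : ℂ) * ph h a q n - av (d * q) fun n => w d n * ph h a q n)
      (Fw (val h) M β) hM fun m _ _ => per_partial (Nat.mul_pos hd0 hq) hp hb n₀ m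
    simp only [sub_mul] at h1
    rw [sum_sub_distrib, ← mul_sum] at h1
    refine h1.trans (mul_le_mul ?_ (fw_var hG hM β) (by positivity) (by positivity))
    push_cast
    have h2 : (d : ℝ) * d ≤ R ^ 2 := by
      rw [sq]; exact mul_le_mul hdR' hdR' (by positivity) (by positivity)
    have h3 := mul_le_mul_of_nonneg_right h2 (Nat.cast_nonneg q : (0 : ℝ) ≤ q)
    linarith
  refine (sum_le_card_nsmul _ _ _ key).trans (le_of_eq ?_)
  rw [Nat.card_Icc, Nat.add_sub_cancel, nsmul_eq_mul]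
  ring

theorem exp_miW (hw : Wk w) {d : ℕ} (hd : 0 < d) (n : ℕ) (x : ℝ) :
    (w d n : ℂ) * ee x = ∑ r ∈ range d, ∑ b ∈ range d,
      (w d r : ℂ) / d * ee (-(b * r / d)) * ee (x + b / d * n) := by
  have d0 : (d : ℂ) ≠ 0 := Nat.cast_ne_zero.2 hd.ne'
  have e : ∀ r : ℕ, ∑ b ∈ range d, (w d r : ℂ) / d * ee (-(b * r / d)) * ee (x + b / d * n) =
      (w d r : ℂ) / d * (if (d : ℤ) ∣ (n : ℤ) - r then (d : ℂ) else 0) * ee x := fun r => by
    rw [← sum_ee hd, mul_sum, sum_mul]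
    refine sum_congr rfl fun b _ => ?_
    rw [mul_assoc, mul_assoc, ← ee_add, ← ee_add]
    congr 2
    push_cast
    ring
  rw [sum_congr rfl fun r _ => e r, sum_eq_single (n % d)]
  · have p := (hw.per d).nat_mul (n / d) (n % d : ℕ)
    rw [← Nat.cast_mul, ← Nat.cast_add, Nat.mod_add_div'] at p
    rw [if_pos (Nat.modEq_iff_dvd.1 (Nat.mod_modEq n d)), div_mul_cancel₀ _ d0, p]
  · intro r hr hn
    rw [if_neg fun h => hn ?_, mul_zero, zero_mul]
    rw [← Nat.mod_eq_of_lt (mem_range.1 hr)]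
    exact Nat.modEq_iff_dvd.2 h
  · exact fun h => absurd (mem_range.2 (Nat.mod_lt _ hd)) h

theorem minorW (hw : Wk w) (hG : Gro (val h) k n₀ B) {M R : ℕ} (hM : n₀ ≤ M) (θ : ℝ) {X : ℝ}
    (hX : ∀ (η : ℝ) (m : ℕ), m ≤ M → ‖∑ n ∈ Ico n₀ m, ee (θ * val h n + η * n)‖ ≤ X) :
    ‖Tk h w n₀ M R θ‖ ≤ (R : ℝ) ^ 3 * X * (7 * B ^ 2 * (M : ℝ) ^ (k - 1)) := by
  have X0 : 0 ≤ X := (norm_nonneg _).trans (hX 0 0 (Nat.zero_le _))
  have e : Tk h w n₀ M R θ = ∑ d ∈ Icc 1 R, ∑ n ∈ Ico n₀ M,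
      (w d n * ee (θ * val h n)) * Fw (val h) M 0 n := by
    rw [Tk, sum_comm]
    refine sum_congr rfl fun n _ => ?_
    rw [← sum_mul, ← sum_mul, Fw, zero_mul, ee_zero]
    push_cast
    ring
  have v := fw_var hG hM 0
  rw [abs_zero, zero_mul, add_zero, mul_one] at v
  rw [e]
  refine (norm_sum_le _ _).trans ((sum_le_card_nsmul _ _
    ((R : ℝ) ^ 2 * X * (7 * B ^ 2 * (M : ℝ) ^ (k - 1))) fun d hd => ?_).trans_eq (by
      rw [Nat.card_Icc, nsmul_eq_mul, Nat.add_sub_cancel]; ring))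
  obtain ⟨d1, dR⟩ := mem_Icc.1 hd
  have d0 : (0 : ℝ) < d := Nat.cast_pos.2 d1
  refine (abel (B := (R : ℝ) ^ 2 * X) _ _ hM fun m _ hm => ?_).trans
    (mul_le_mul_of_nonneg_left v (by positivity))
  rw [sum_congr rfl fun n _ => exp_miW hw d1 n _, sum_comm]
  refine (norm_sum_le _ _).trans ((sum_le_card_nsmul _ _ ((d : ℝ) * X) fun r _ => ?_).trans ?_)
  · rw [sum_comm]
    refine (norm_sum_le _ _).trans ((sum_le_card_nsmul _ _ X fun b _ => ?_).trans_eq (by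
      rw [card_range, nsmul_eq_mul]))
    rw [← mul_sum, norm_mul, norm_mul, norm_ee, mul_one, norm_div, Complex.norm_real,
      Complex.norm_natCast]
    exact (mul_le_mul ((div_le_one d0).2 (hw.bd d d1 r)) (hX _ m hm) (norm_nonneg _)
      zero_le_one).trans_eq (one_mul _)
  · have : (d : ℝ) ≤ R := Nat.cast_le.2 dR
    rw [card_range, nsmul_eq_mul, ← mul_assoc, ← sq]
    gcongr

theorem cmpW (hG : Gro H k n₀ B) {M : ℕ} (hM : n₀ ≤ M) (β : ℝ) :
    ‖∑ n ∈ Ico n₀ M, Fw H M β n - ∑ u ∈ range (H M).toNat, phi_ar (H M).toNat β u‖ ≤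
      7 * B ^ 2 * (M : ℝ) ^ (k - 1) * (1 + |β| * (M : ℝ) ^ k) + B * (n₀ : ℝ) ^ k := by
  have c : ∀ n, n₀ ≤ n → (((H n).toNat : ℕ) : ℝ) = H n := fun n hn => by
    rw [← Int.cast_natCast, Int.toNat_of_nonneg (hG.pos n hn).le]
  have mono : ∀ m n, n₀ ≤ m → m ≤ n → (H m).toNat ≤ (H n).toNat := fun m n h1 h2 =>
    Int.toNat_le_toNat (hG.mono h1 h2)
  have hN : (0 : ℝ) < (H M).toNat := by
    rw [c M hM]
    exact_mod_cast hG.pos M hM
  have hB := hG.one
  set N : ℝ := ((H M).toNat : ℝ) with hNd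
  set A : ℝ := B * (M : ℝ) ^ (k - 1) with hA
  have A0 : 0 ≤ A := by positivity
  have key : ∀ m, n₀ ≤ m → m ≤ M → ‖∑ n ∈ Ico n₀ m, Fw H M β n -
      ∑ u ∈ Ico (H n₀).toNat (H m).toNat, phi_ar N β u‖ ≤
        (1 / N + 7 * |β|) * A * ((H m).toNat - (H n₀).toNat) := by
    intro m hm
    induction m, hm using Nat.le_induction with
    | base => simp
    | succ m hm ih =>
      intro h1
      have h2 : m ≤ M := by omega
      have h3 := block_ar (β := β) (A := A) hN (mono m (m + 1) hm m.le_succ)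
        (Nat.cast_le.2 (mono m M hm h2)) (by
          have h4 := hG.step m hm
          have h5 : (m : ℝ) ^ (k - 1) ≤ (M : ℝ) ^ (k - 1) :=
            pow_le_pow_left₀ (Nat.cast_nonneg m) (Nat.cast_le.2 h2) _
          rw [c _ hm, c _ (by omega : n₀ ≤ m + 1)]
          push_cast at h4
          exact h4.trans (mul_le_mul_of_nonneg_left h5 (by linarith)))
      have e : Fw H M β m = ((((H (m + 1)).toNat : ℝ) - (H m).toNat : ℝ) : ℂ) *
          phi_ar N β (H m).toNat := by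
        rw [hNd, c _ hm, c _ (by omega : n₀ ≤ m + 1), c M hM, Fw, Wt, phi_ar]
        push_cast
        ring
      rw [sum_Ico_succ_top hm, ← sum_Ico_consecutive _ (mono n₀ m le_rfl hm)
        (mono m (m + 1) hm m.le_succ), add_sub_add_comm, e]
      refine (norm_add_le _ _).trans ((add_le_add (ih h2) h3).trans (le_of_eq ?_))
      ring
  have h1 := key M hM le_rfl
  have h2 : ‖∑ u ∈ range (H n₀).toNat, phi_ar N β u‖ ≤ B * (n₀ : ℝ) ^ k := by
    refine (norm_sum_le _ _).trans ((sum_le_card_nsmul _ _ 1 fun u hu => ?_).trans ?_)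
    · exact norm_ar hN (Nat.cast_nonneg u)
        (Nat.cast_le.2 ((mem_range.1 hu).le.trans (mono n₀ M le_rfl hM)))
    · rw [card_range, nsmul_eq_mul, mul_one, c _ le_rfl]
      exact hG.up n₀ le_rfl
  have h3 : (1 / N + 7 * |β|) * A * (N - (H n₀).toNat) ≤
      7 * B ^ 2 * (M : ℝ) ^ (k - 1) * (1 + |β| * (M : ℝ) ^ k) := by
    have a1 : N ≤ B * (M : ℝ) ^ k := by
      rw [hNd, c M hM]
      exact hG.up M hM
    have a2 : (1 / N + 7 * |β|) * A * N = A * (1 + 7 * (|β| * N)) := by field_simp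
    have a3 : |β| * N ≤ |β| * (B * (M : ℝ) ^ k) := mul_le_mul_of_nonneg_left a1 (abs_nonneg β)
    calc _ ≤ (1 / N + 7 * |β|) * A * N :=
          mul_le_mul_of_nonneg_left (sub_le_self _ (Nat.cast_nonneg _)) (by positivity)
      _ ≤ A * (7 * B + 7 * (|β| * (B * (M : ℝ) ^ k))) := by
          rw [a2]
          exact mul_le_mul_of_nonneg_left (by linarith) A0
      _ = _ := by rw [hA]; ring
  rw [← sum_range_add_sum_Ico _ (mono n₀ M le_rfl hM), add_comm (∑ u ∈ range _, _), ← sub_sub]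
  exact (norm_sub_le _ _).trans (add_le_add (h1.trans h3) h2)

end Vale.Agent.P042.S
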