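import Vale.Agent.P042.S.Arch
import Vale.Agent.P042.S.Glob

/-! # P042 T/Defs: all intersective polynomials, sectors and several scales (FROZEN, owner helper37).
Overview: notes/P042T.md. -/

namespace Vale.Agent.P042.S

open Finset Polynomial

noncomputable section

/-- Periodic bounded weights. -/
structure Wk (w : ℕ → ℤ → ℝ) : Prop where
  per : ∀ d, Function.Periodic (w d) (d : ℤ)
  bd : ∀ d, 0 < d → ∀ n, |w d n| ≤ d

/-- The truncated singular series. -/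
def Sg (h : ℤ[X]) (w : ℕ → ℤ → ℝ) (R q : ℕ) (a : ℤ) : ℂ :=
  ∑ d ∈ Icc 1 R, av (d * q) fun n => w d n * ph h a q n

/-- Martingale differences at every prime. -/
structure LW (D : ℕ → ℕ → ℤ → ℝ) : Prop where
  zero : ∀ p n, D p 0 n = 1
  per : ∀ p i, Function.Periodic (D p i) ((p ^ i : ℕ) : ℤ)
  mart : ∀ p : ℕ, p.Prime → ∀ i n, ∑ t ∈ range p, D p (i + 1) (n + ((p ^ i : ℕ) : ℤ) * t) = 0
  bd : ∀ p : ℕ, p.Prime → ∀ i n, |D p i n| ≤ (p ^ i : ℕ)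

/-- The normalized indicator of the class of `z` modulo `p ^ i`. -/
def bl (z : ℤ) (p i : ℕ) (n : ℤ) : ℝ := if ((p ^ i : ℕ) : ℤ) ∣ n - z then ((p ^ i : ℕ) : ℝ) else 0

/-- The differences of a geometric mixture of classes of `z`. -/
def DT (θ : ℕ → ℝ) (J : ℕ → ℕ) (z : ℤ) (p : ℕ) : ℕ → ℤ → ℝ
  | 0 => fun _ => 1
  | i + 1 => fun n => if i < J p then θ p ^ (i + 1) * (bl z p (i + 1) n - bl z p i n) else 0

/-- The mean of the phase over the class of `z` modulo `p ^ i`. -/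
def Gb (h : ℤ[X]) (z a : ℤ) (p j i : ℕ) : ℂ :=
  av (p ^ j) fun n => ph h a (p ^ j) (z + ((p ^ i : ℕ) : ℤ) * n)

/-- The term of the divisor `d` of `q`. -/
def tm (h : ℤ[X]) (D : ℕ → ℕ → ℤ → ℝ) (q : ℕ) (a : ℤ) (d : ℕ) : ℂ :=
  av q fun n => gw D d n * ph h a q n

/-- Small, or in a sector around the segment `[0, 1]`. -/
def Sec (Γ ε : ℝ) (x : ℂ) : Prop :=
  ‖x‖ ≤ Γ * ε ∨ ∃ s : ℝ, 0 ≤ s ∧ s ≤ 1 ∧ ‖x - s‖ ≤ (Γ - 1) * s

/-- The normalized triangular sum. -/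
def Phi (X : ℕ) (β : ℝ) : ℂ := (∑ u ∈ range X, phi_ar X β u) / X

/-- The weights `w` have a singular series in a sector, for all moduli up to `E`. -/
structure Ser (h : ℤ[X]) (η ε : ℝ) (R E : ℕ) (w : ℕ → ℤ → ℝ) : Prop where
  wk : Wk w
  one : Sg h w R 1 0 = 1
  sec : ∀ q : ℕ, 0 < q → q ≤ E → ∀ a : ℤ, IsCoprime a q →
    ∃ s : ℝ, 0 ≤ s ∧ s ≤ 1 ∧ ‖Sg h w R q a - s‖ ≤ η * s + ε

/-- The kernel with the scales `T ^ i * M`, `i ≤ I`. -/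
def Tm (h : ℤ[X]) (w : ℕ → ℤ → ℝ) (n₀ M T R I : ℕ) (θ : ℝ) : ℂ :=
  ∑ i ∈ range (I + 1), (((3 / 2 : ℝ) ^ i : ℝ) : ℂ) *
    (Tk h w n₀ (T ^ i * M) R θ / (val h (T ^ i * M) : ℂ))

end

end Vale.Agent.P042.S
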