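import Vale.Agent.P042.T.Defs

/-! # P042 T/GlobA (TASK; helper names end with _tga): small tools.
`pow_sec`: `(1 + x) ^ n ≤ exp (x n) ≤ 1 + 2 x n` (`Real.add_one_le_exp`, `Real.exp_bound_div_one_sub_of_interval` or `Real.abs_exp_sub_one_le`).  `omega_le`: `2 ^ card ≤ ∏ p ≤ q` (`Nat.prod_primeFactors_dvd`, `Finset.pow_card_le_prod`).
`omega_le'`: `primeFactors ⊆ Icc 1 y`.  `fact_le`: `Nat.factorial_le_pow`, `y ≤ 2 ^ y`.  `dec_large`: `p ^ j ≤ y p ^ (k m) < p ^ (k m + 1)`, so `j ≤ k m`; `Λ ≤ p ^ (c / (4 k)) ≤ p ^ (j c / (4 k))`; compare exponents of `p` (`Real.rpow_le_rpow_of_exponent_le`). -/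

namespace Vale.Agent.P042.S

open Finset Polynomial

theorem pow_sec {x η : ℝ} {n : ℕ} (hx : 0 ≤ x) (hη : η ≤ 1) (h : x * n ≤ η / 8) :
    (1 + x) ^ n ≤ 1 + η / 4 := by
  have h0 : 0 ≤ x * n := by positivity
  have h1 : (1 + x) ^ n ≤ Real.exp x ^ n :=
    pow_le_pow_left₀ (by linarith) (by linarith [Real.add_one_le_exp x]) n
  rw [← Real.exp_nat_mul, mul_comm] at h1
  have h2 := Real.abs_exp_sub_one_le (x := x * n) (by rw [abs_of_nonneg h0]; linarith)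
  rw [abs_of_nonneg h0] at h2
  linarith [le_abs_self (Real.exp (x * n) - 1)]

theorem omega_le {q b : ℕ} (hq : 0 < q) (h : q ≤ 2 ^ b) : q.primeFactors.card ≤ b := by
  have h1 : 2 ^ q.primeFactors.card ≤ ∏ p ∈ q.primeFactors, p :=
    Finset.pow_card_le_prod _ _ _ fun p hp => (Nat.prime_of_mem_primeFactors hp).two_le
  have h2 : ∏ p ∈ q.primeFactors, p ≤ q := Nat.le_of_dvd hq (Nat.prod_primeFactors_dvd q)
  exact (Nat.pow_le_pow_iff_right (by norm_num)).1 (h1.trans (h2.trans h))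

theorem omega_le' {q y : ℕ} (h : ∀ p : ℕ, p.Prime → p ∣ q → p ≤ y) : q.primeFactors.card ≤ y := by
  have h1 : q.primeFactors ⊆ Icc 1 y := fun p hp =>
    mem_Icc.2 ⟨(Nat.prime_of_mem_primeFactors hp).one_le,
      h p (Nat.prime_of_mem_primeFactors hp) (Nat.dvd_of_mem_primeFactors hp)⟩
  simpa using card_le_card h1

theorem fact_le (y J b : ℕ) : y.factorial ^ J * 2 ^ b ≤ 2 ^ (y ^ 2 * J + b) := by
  have h1 : y.factorial ≤ 2 ^ (y ^ 2) := by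
    calc y.factorial ≤ y ^ y := Nat.factorial_le_pow y
      _ ≤ (2 ^ y) ^ y := Nat.pow_le_pow_left (Nat.lt_two_pow_self).le y
      _ = 2 ^ (y ^ 2) := by rw [← pow_mul, sq]
  rw [pow_add, pow_mul]
  exact Nat.mul_le_mul_right _ (Nat.pow_le_pow_left h1 J)

theorem dec_large {c Λ : ℝ} {k y p j m : ℕ} {l : ℤ} (hc : 0 < c) (hk : 1 ≤ k)
    (hΛ : Λ ≤ (y : ℝ) ^ (c / (4 * k))) (hl : |l| ≤ y) (hy : 1 ≤ y) (hp : y < p) (hj : 0 < j)
    (hm : (p : ℤ) ^ j ≤ |l| * (p : ℤ) ^ (k * m)) :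
    Λ * ((p : ℝ) ^ (-(c / 2))) ^ m ≤ ((p ^ j : ℕ) : ℝ) ^ (-(c / (4 * k))) := by
  have hp1 : 1 < p := by omega
  have hpZ : (1 : ℤ) < p := by exact_mod_cast hp1
  have hpR : (1 : ℝ) ≤ p := by exact_mod_cast hp1.le
  have hp0 : (0 : ℝ) < p := by linarith
  have hk0 : (0 : ℝ) < k := by exact_mod_cast hk
  have hlt : (p : ℤ) ^ j < (p : ℤ) ^ (k * m + 1) := by
    have h1 : |l| < p := lt_of_le_of_lt hl (by exact_mod_cast hp)
    have h2 : (0 : ℤ) < (p : ℤ) ^ (k * m) := by positivity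
    calc (p : ℤ) ^ j ≤ |l| * (p : ℤ) ^ (k * m) := hm
      _ < p * (p : ℤ) ^ (k * m) := mul_lt_mul_of_pos_right h1 h2
      _ = (p : ℤ) ^ (k * m + 1) := by ring
  have hjk : j ≤ k * m := Nat.lt_succ_iff.1 ((pow_lt_pow_iff_right₀ hpZ).1 hlt)
  have hjR : (j : ℝ) ≤ k * m := by exact_mod_cast hjk
  have hj1 : (1 : ℝ) ≤ j := by exact_mod_cast hj
  have he : 0 ≤ c / (4 * k) := by positivity
  have hΛp : Λ ≤ (p : ℝ) ^ (c / (4 * k)) :=
    hΛ.trans (Real.rpow_le_rpow (by positivity) (by exact_mod_cast hp.le) he)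
  have hex : c / (4 * k) + -(c / 2) * m ≤ j * -(c / (4 * k)) := by
    have e : c / 2 * m = c / (4 * k) * (2 * (k * m)) := by field_simp; ring
    have : c / (4 * k) * (1 + j) ≤ c / (4 * k) * (2 * (k * m)) :=
      mul_le_mul_of_nonneg_left (by linarith) he
    linarith
  calc Λ * ((p : ℝ) ^ (-(c / 2))) ^ m ≤ (p : ℝ) ^ (c / (4 * k)) * ((p : ℝ) ^ (-(c / 2))) ^ m :=
        mul_le_mul_of_nonneg_right hΛp (by positivity)
    _ = (p : ℝ) ^ (c / (4 * k) + -(c / 2) * m) := by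
        rw [Real.rpow_add hp0, Real.rpow_mul hp0.le, Real.rpow_natCast]
    _ ≤ (p : ℝ) ^ (j * -(c / (4 * k))) := Real.rpow_le_rpow_of_exponent_le hpR hex
    _ = ((p ^ j : ℕ) : ℝ) ^ (-(c / (4 * k))) := by
        rw [Real.rpow_mul hp0.le, Real.rpow_natCast, Nat.cast_pow]

end Vale.Agent.P042.S
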