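import Vale.Agent.P042.T.Defs

/-! # P042 T/Par (TASK; helper names end with _tpa): the parameters.
`a₁ = ⌈2 / c⌉₊`, `e = 3 a₁ + 1`, `b₀ = ⌈4 k / c⌉₊ ≥ 1`, `y₀ ≥ max ℓ 1` with `Λ ≤ y₀ ^ (c / (4 k))` and `8 Λ b₀ / η ≤ y₀ ^ (c / 2)` (`tendsto_rpow_atTop`, or `y₀ ≥ t ^ (1 / γ)`), `τ₀ = min (η / (8 Λ)) (1 - 2 ^ (-(c / 2))) > 0`, `J₀ = ⌈1 / τ₀⌉₊`;
`b = b₀ L`, `y = y₀ L ^ a₁`, `τ = τ₀ / y`, `J = J₀ y L`, `A = J₀ y₀ ^ 3 + b₀`.  `y ^ (c / 2) ≥ y₀ ^ (c / 2) L`; `(1 - τ) ^ J ≤ exp (-τ J) ≤ exp (-L) ≤ (1 / 2) ^ L` (`Real.one_sub_le_exp_neg`, `Real.add_one_le_exp`). -/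

namespace Vale.Agent.P042.S

open Finset Polynomial

lemma big_tpa {γ : ℝ} (hγ : 0 < γ) (t : ℝ) : ∃ y₀ : ℕ, ∀ y : ℕ, y₀ ≤ y → t ≤ (y : ℝ) ^ γ := by
  have h1 : Filter.Tendsto (fun y : ℕ => (y : ℝ) ^ γ) Filter.atTop Filter.atTop :=
    (tendsto_rpow_atTop hγ).comp tendsto_natCast_atTop_atTop
  obtain ⟨y₀, hy⟩ := Filter.eventually_atTop.1 (h1.eventually_ge_atTop t)
  exact ⟨y₀, hy⟩

lemma exp_tpa {τ : ℝ} {J L : ℕ} (h1 : τ ≤ 1) (hJ : (L : ℝ) ≤ τ * J) :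
    (1 - τ) ^ J ≤ (1 / 2 : ℝ) ^ L := by
  have h2 : (1 - τ) ^ J ≤ Real.exp (-τ) ^ J :=
    pow_le_pow_left₀ (by linarith) (Real.one_sub_le_exp_neg τ) J
  have h3 : Real.exp (-τ) ^ J = Real.exp (-(τ * J)) := by
    rw [← Real.exp_nat_mul]; ring_nf
  have h4 : Real.exp (-(τ * J)) ≤ Real.exp (-1) ^ L := by
    rw [← Real.exp_nat_mul]
    exact Real.exp_le_exp.2 (by linarith)
  have h5 : Real.exp (-1) ≤ 1 / 2 := by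
    rw [Real.exp_neg, one_div]
    apply inv_anti₀ (by norm_num)
    have := Real.add_one_le_exp (1 : ℝ)
    linarith
  have h6 : Real.exp (-1) ^ L ≤ (1 / 2 : ℝ) ^ L :=
    pow_le_pow_left₀ (Real.exp_pos _).le h5 L
  linarith

lemma two_tpa {γ : ℝ} {b L : ℕ} (h : (L : ℝ) ≤ b * γ) :
    ((2 ^ b : ℕ) : ℝ) ^ (-γ) ≤ (1 / 2 : ℝ) ^ L := by
  have h1 : ((2 ^ b : ℕ) : ℝ) ^ (-γ) = (2 : ℝ) ^ (-(b * γ)) := by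
    rw [Nat.cast_pow, Nat.cast_ofNat, ← Real.rpow_natCast, ← Real.rpow_mul (by norm_num)]
    ring_nf
  have h2 : (1 / 2 : ℝ) ^ L = (2 : ℝ) ^ (-(L : ℝ)) := by
    rw [Real.rpow_neg (by norm_num), Real.rpow_natCast, one_div, inv_pow]
  rw [h1, h2]
  exact Real.rpow_le_rpow_of_exponent_le (by norm_num) (by linarith)

lemma grow_tpa {γ : ℝ} {y₀ L a : ℕ} (hL : 1 ≤ L) (ha : 1 ≤ a * γ) :
    (y₀ : ℝ) ^ γ * L ≤ ((y₀ * L ^ a : ℕ) : ℝ) ^ γ := by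
  have hL' : (1 : ℝ) ≤ L := by exact_mod_cast hL
  rw [Nat.cast_mul, Real.mul_rpow (Nat.cast_nonneg _) (Nat.cast_nonneg _), Nat.cast_pow,
    ← Real.rpow_natCast, ← Real.rpow_mul (by linarith)]
  apply mul_le_mul_of_nonneg_left _ (Real.rpow_nonneg (Nat.cast_nonneg _) _)
  calc (L : ℝ) = (L : ℝ) ^ (1 : ℝ) := (Real.rpow_one _).symm
    _ ≤ _ := Real.rpow_le_rpow_of_exponent_le hL' ha

theorem par {c Λ η : ℝ} {k : ℕ} (hc : 0 < c) (hc1 : c ≤ 1) (hΛ : 1 ≤ Λ) (hη : 0 < η) (hk : 1 ≤ k) :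
    ∃ e : ℕ, ∀ ℓ : ℕ, ∃ A : ℕ, ∀ L : ℕ, 1 ≤ L → ∃ (b y J : ℕ) (τ : ℝ), 0 ≤ τ ∧
      (2 : ℝ) ^ (-(c / 2)) ≤ 1 - τ ∧ L ≤ b ∧ ((2 ^ b : ℕ) : ℝ) ^ (-(c / (4 * k))) ≤ (1 / 2) ^ L ∧
      Λ * (y : ℝ) ^ (-(c / 2)) * b ≤ η / 8 ∧ Λ ≤ (y : ℝ) ^ (c / (4 * k)) ∧ ℓ ≤ y ∧ 1 ≤ y ∧
      τ * Λ * y ≤ η / 8 ∧ (1 - τ) ^ J ≤ (1 / 2) ^ L ∧ y ^ 2 * J + b ≤ A * L ^ e := by
  have hk' : (1 : ℝ) ≤ k := by exact_mod_cast hk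
  have hγ : 0 < c / (4 * k) := by positivity
  have hc2 : 0 < c / 2 := by positivity
  obtain ⟨a₁, ha₁⟩ : ∃ a₁ : ℕ, 1 ≤ a₁ * (c / 2) := by
    refine ⟨⌈2 / c⌉₊, ?_⟩
    have h := Nat.le_ceil (2 / c)
    calc (1 : ℝ) = 2 / c * (c / 2) := by field_simp
      _ ≤ _ := mul_le_mul_of_nonneg_right h hc2.le
  obtain ⟨b₀, hb₁, hb₀⟩ : ∃ b₀ : ℕ, 1 ≤ b₀ ∧ 1 ≤ b₀ * (c / (4 * k)) := by
    refine ⟨⌈4 * k / c⌉₊, Nat.one_le_iff_ne_zero.2 (Nat.ceil_pos.2 (by positivity)).ne', ?_⟩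
    have h := Nat.le_ceil (4 * k / c)
    calc (1 : ℝ) = 4 * k / c * (c / (4 * k)) := by field_simp
      _ ≤ _ := mul_le_mul_of_nonneg_right h hγ.le
  have h2 : (2 : ℝ) ^ (-(c / 2)) < 1 :=
    Real.rpow_lt_one_of_one_lt_of_neg (by norm_num) (by linarith)
  have h2' : 0 < (2 : ℝ) ^ (-(c / 2)) := by positivity
  obtain ⟨τ₀, hτ₀, hτ₁, hτ₂⟩ : ∃ τ₀ : ℝ, 0 < τ₀ ∧ τ₀ ≤ η / (8 * Λ) ∧
      τ₀ ≤ 1 - (2 : ℝ) ^ (-(c / 2)) :=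
    ⟨min (η / (8 * Λ)) (1 - (2 : ℝ) ^ (-(c / 2))), lt_min (by positivity) (by linarith),
      min_le_left _ _, min_le_right _ _⟩
  obtain ⟨J₀, hJ₀⟩ : ∃ J₀ : ℕ, 1 ≤ τ₀ * J₀ := by
    refine ⟨⌈1 / τ₀⌉₊, ?_⟩
    have h := Nat.le_ceil (1 / τ₀)
    calc (1 : ℝ) = τ₀ * (1 / τ₀) := by field_simp
      _ ≤ _ := mul_le_mul_of_nonneg_left h hτ₀.le
  obtain ⟨y₁, hy₁⟩ := big_tpa hγ Λ
  obtain ⟨y₂, hy₂⟩ := big_tpa hc2 (8 * Λ * b₀ / η)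
  refine ⟨3 * a₁ + 1, fun ℓ => ?_⟩
  obtain ⟨y₀, h01, h02, h03, h04⟩ : ∃ y₀ : ℕ, y₁ ≤ y₀ ∧ y₂ ≤ y₀ ∧ ℓ ≤ y₀ ∧ 1 ≤ y₀ :=
    ⟨y₁ + y₂ + ℓ + 1, by omega, by omega, by omega, by omega⟩
  refine ⟨J₀ * y₀ ^ 3 + b₀, fun L hL => ?_⟩
  have hLa : 1 ≤ L ^ a₁ := Nat.one_le_pow _ _ hL
  have hy : y₀ ≤ y₀ * L ^ a₁ := Nat.le_mul_of_pos_right _ hLa
  have hL' : (1 : ℝ) ≤ L := by exact_mod_cast hL
  have hg := grow_tpa (y₀ := y₀) hL ha₁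
  generalize hyy : y₀ * L ^ a₁ = y at hy hg
  have hy1 : (1 : ℝ) ≤ y := by exact_mod_cast h04.trans hy
  have hτ : τ₀ / y ≤ τ₀ := div_le_self hτ₀.le hy1
  refine ⟨b₀ * L, y, J₀ * y * L, τ₀ / y, by positivity, by linarith,
    Nat.le_mul_of_pos_left _ hb₁, two_tpa ?_, ?_, hy₁ _ (h01.trans hy), h03.trans hy,
    h04.trans hy, ?_, exp_tpa (by linarith) ?_, ?_⟩
  · push_cast
    nlinarith
  · have h3 := hy₂ y₀ h02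
    have h4 : 0 < (y : ℝ) ^ (c / 2) := by positivity
    rw [Real.rpow_neg (by linarith), mul_right_comm, ← div_eq_mul_inv, div_le_iff₀ h4]
    rw [div_le_iff₀ hη] at h3
    push_cast
    have h5 : (y₀ : ℝ) ^ (c / 2) * η * L ≤ (y : ℝ) ^ (c / 2) * η := by nlinarith
    nlinarith
  · have h3 : τ₀ / y * Λ * y = τ₀ * Λ := by field_simp
    rw [h3]
    rw [le_div_iff₀ (by positivity)] at hτ₁
    linarith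
  · push_cast
    have h3 : τ₀ / y * (J₀ * y * L) = τ₀ * J₀ * L := by field_simp
    rw [h3]
    nlinarith
  · subst hyy
    have h3 : L ≤ L ^ (3 * a₁ + 1) := Nat.le_self_pow (by omega) _
    have h4 : (y₀ * L ^ a₁) ^ 2 * (J₀ * (y₀ * L ^ a₁) * L) = J₀ * y₀ ^ 3 * L ^ (3 * a₁ + 1) := by
      ring
    rw [h4, add_mul]
    exact Nat.add_le_add_left (Nat.mul_le_mul_left _ h3) _

end Vale.Agent.P042.S
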