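import Vale.Agent.P042.T.Prod

/-! # P042 T/Trunc (TASK; helper names end with _ttr): the truncation.
`Q = y ! ^ J > 0`.  `sg_split`: terms with `d ∤ q` vanish (`gw_vanW`), for `d ∣ q` use `av_mul` (model: `red_ac` in S/Arcs.lean); `d = gcd d Q * (d / gcd d Q) ≤ Q R₂` if the weight is not cut, so the sum is `∑ d ∈ q.divisors, if d / gcd d Q ≤ R₂ then tm h D q a d else 0`;
`sum_div_gl`, `ph_split`, `split_glW`.  For `d₁ ∣ q₁`, `d₂ ∣ q₂`: `d₂` is coprime to `Q` (`Nat.Prime.dvd_factorial`); if `d₁ ∣ Q` then `gcd (d₁ d₂) Q = d₁` (`Nat.Coprime.gcd_mul_right_cancel`-like); otherwise some prime has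
`v_p(d₁) > v_p(Q) ≥ J` (`Nat.factorization_prime_le_iff_dvd`, `p ^ J ∣ Q`), so `gw D d₁ = 0` (`Finset.prod_eq_zero`).  `sg_one`: `sg_split` with `q₁ = q₂ = 1`, `tm_one`. -/

namespace Vale.Agent.P042.S

open Finset Polynomial

variable {h : ℤ[X]} {D : ℕ → ℕ → ℤ → ℝ}

/-- The truncated weights. -/
noncomputable def wT (D : ℕ → ℕ → ℤ → ℝ) (Q R₂ d : ℕ) (n : ℤ) : ℝ :=
  if d / Nat.gcd d Q ≤ R₂ then gw D d n else 0

theorem wT_wk (hL : LW D) (Q R₂ : ℕ) : Wk (wT D Q R₂) := by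
  refine ⟨fun d n => ?_, fun d hd n => ?_⟩
  · unfold wT
    rw [gw_perW hL d n]
  · unfold wT
    split_ifs
    · exact gw_bdW hL hd n
    · rw [abs_zero]
      exact Nat.cast_nonneg d

theorem red_ttr (hL : LW D) {Q R₂ q : ℕ} (hQ : 0 < Q) (hq : 0 < q) (a : ℤ) :
    Sg h (wT D Q R₂) (Q * R₂) q a =
      ∑ d ∈ q.divisors, if d / Nat.gcd d Q ≤ R₂ then tm h D q a d else 0 := by
  have h1 : Sg h (wT D Q R₂) (Q * R₂) q a = ∑ d ∈ Icc 1 (Q * R₂) with d ∣ q,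
      if d / Nat.gcd d Q ≤ R₂ then tm h D q a d else 0 := by
    rw [Sg, sum_filter]
    refine sum_congr rfl fun d hd => ?_
    have hd0 : 0 < d := (mem_Icc.1 hd).1
    by_cases hc : d / Nat.gcd d Q ≤ R₂
    · simp only [wT, if_pos hc]
      split_ifs with h1
      · rw [mul_comm d q]
        exact av_mul (fun n => by
          rw [per_dvd_gl (gw_perW hL d) h1 n, ph_per h a q n]) hd0
      · exact gw_vanW hL hd0 hq h1 a
    · simp [wT, if_neg hc, av]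
  rw [h1]
  refine sum_subset (fun d hd => Nat.mem_divisors.2 ⟨(mem_filter.1 hd).2, hq.ne'⟩)
    fun d hd hd' => if_neg fun hc => hd' (mem_filter.2 ⟨mem_Icc.2
      ⟨Nat.pos_of_mem_divisors hd, ?_⟩, Nat.dvd_of_mem_divisors hd⟩)
  calc d = Nat.gcd d Q * (d / Nat.gcd d Q) := (Nat.mul_div_cancel' (Nat.gcd_dvd_left d Q)).symm
    _ ≤ Q * R₂ := Nat.mul_le_mul (Nat.gcd_le_right d hQ) hc

theorem van_ttr {y J d : ℕ}
    (hD : ∀ p : ℕ, p.Prime → p ≤ y → ∀ i, J < i → ∀ n, D p i n = 0) (hd0 : 0 < d)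
    (hs : ∀ p : ℕ, p.Prime → p ∣ d → p ≤ y) (hd : ¬ d ∣ y.factorial ^ J) (n : ℤ) :
    gw D d n = 0 := by
  have hQ : 0 < y.factorial ^ J := pow_pos y.factorial_pos J
  rw [← Nat.factorization_prime_le_iff_dvd hd0.ne' hQ.ne'] at hd
  push Not at hd
  obtain ⟨p, hp, hlt⟩ := hd
  have hne : d.factorization p ≠ 0 := by omega
  have hpy := hs p hp (Nat.dvd_of_factorization_pos hne)
  have hJ : J ≤ (y.factorial ^ J).factorization p :=
    (hp.pow_dvd_iff_le_factorization hQ.ne').1 (pow_dvd_pow_of_dvd (hp.dvd_factorial.2 hpy) J)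
  unfold gw Finsupp.prod
  exact prod_eq_zero (Finsupp.mem_support_iff.2 hne) (hD p hp hpy _ (by omega) n)

theorem sg_split (hL : LW D) {y J R₂ q₁ q₂ : ℕ}
    (hD : ∀ p : ℕ, p.Prime → p ≤ y → ∀ i, J < i → ∀ n, D p i n = 0) (h₁ : 0 < q₁) (h₂ : 0 < q₂)
    (hc : q₁.Coprime q₂) (hs : ∀ p : ℕ, p.Prime → p ∣ q₁ → p ≤ y)
    (hr : ∀ p : ℕ, p.Prime → p ∣ q₂ → y < p) {a : ℤ} (ha : IsCoprime a ((q₁ * q₂ : ℕ) : ℤ)) :
    ∃ a₁ a₂ : ℤ, IsCoprime a₁ q₁ ∧ IsCoprime a₂ q₂ ∧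
      Sg h (wT D (y.factorial ^ J) R₂) (y.factorial ^ J * R₂) (q₁ * q₂) a =
        (∑ d ∈ q₁.divisors, tm h D q₁ a₁ d) * ∑ d ∈ q₂.divisors with d ≤ R₂, tm h D q₂ a₂ d := by
  have hQ : 0 < y.factorial ^ J := pow_pos y.factorial_pos J
  obtain ⟨a₁, a₂, c₁, c₂, H⟩ := ph_split h hc h₁ h₂ ha
  refine ⟨a₁, a₂, c₁, c₂, ?_⟩
  rw [red_ttr hL hQ (Nat.mul_pos h₁ h₂), sum_div_gl hc, sum_filter, sum_mul_sum]
  refine sum_congr rfl fun d₁ hd₁ => sum_congr rfl fun d₂ hd₂ => ?_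
  have e₁ := Nat.dvd_of_mem_divisors hd₁
  have e₂ := Nat.dvd_of_mem_divisors hd₂
  have p₁ := Nat.pos_of_mem_divisors hd₁
  have hm : tm h D (q₁ * q₂) a (d₁ * d₂) = tm h D q₁ a₁ d₁ * tm h D q₂ a₂ d₂ :=
    split_glW hL hc h₁ h₂ H hd₁ hd₂
  rw [hm]
  by_cases hd : d₁ ∣ y.factorial ^ J
  · have hco : d₂.Coprime (y.factorial ^ J) := by
      refine Nat.Coprime.pow_right J (Nat.coprime_of_dvd fun p hp hp2 hpy => ?_)
      exact absurd (hp.dvd_factorial.1 hpy) (not_le.2 (hr p hp (hp2.trans e₂)))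
    rw [hco.gcd_mul_right_cancel d₁, Nat.gcd_eq_left hd, Nat.mul_div_cancel_left _ p₁]
    split_ifs
    · rfl
    · rw [mul_zero]
  · have h0 : tm h D q₁ a₁ d₁ = 0 := by
      simp [tm, av, van_ttr hD p₁ (fun p hp hp1 => hs p hp (hp1.trans e₁)) hd]
    rw [h0, zero_mul, zero_mul, ite_self]

theorem sg_one (hL : LW D) {y J R₂ : ℕ} (hR : 1 ≤ R₂)
    (hD : ∀ p : ℕ, p.Prime → p ≤ y → ∀ i, J < i → ∀ n, D p i n = 0) :
    Sg h (wT D (y.factorial ^ J) R₂) (y.factorial ^ J * R₂) 1 0 = 1 := by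
  obtain ⟨a₁, a₂, -, -, H⟩ := sg_split (h := h) (R₂ := R₂) hL hD Nat.one_pos Nat.one_pos
    (Nat.coprime_one_left 1) (fun p hp h1 => absurd (Nat.dvd_one.1 h1) hp.ne_one)
    (fun p hp h1 => absurd (Nat.dvd_one.1 h1) hp.ne_one) (a := 0) (by simpa using isCoprime_one_right)
  rw [mul_one] at H
  rw [H, sum_filter, Nat.divisors_one, sum_singleton, sum_singleton, if_pos hR, tm_one, tm_one,
    mul_one]

end Vale.Agent.P042.S
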