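import Vale.Agent.P042.T.LocT
import Vale.Agent.P042.T.Trunc
import Vale.Agent.P042.T.Par
import Vale.Agent.P042.T.GlobA

/-! # P042 T/GlobT (TASK; helper names end with _tgl): the singular series lies in a sector.
`c, Λ` from `locT k`, `par` with `ℓ = natAbs (leadingCoeff h)` (for `k = 0` nothing to prove), `ε = (1 / 2) ^ L`, `R = y ! ^ J * 2 ^ b` (`fact_le`), `z` with `E ! ∣ h z` (`p ^ j ≤ E` gives `p ^ j ∣ E !`, `Nat.dvd_factorial`),
`θ p = if p ≤ y then 1 - τ else p ^ (-(c / 2))`, `J' p = if p ≤ y then J else E`, `D = DT θ J' z`, `w = wT D (y ! ^ J) (2 ^ b)`; `wT_wk`, `sg_one`, `smooth_rough`, `sg_split`.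
First factor: `prod_sec` with `P p = p ≤ y`, `ξ = τ Λ` (`p ^ (-(c / 2)) ≤ 2 ^ (-(c / 2)) ≤ 1 - τ`, `Sec.mono`), `omega_le'`, `pow_sec`.  Second factor: if `q₂ ≤ 2 ^ b` the filter keeps all divisors, `prod_sec` with `P p = y < p`, `ξ = Λ y ^ (-(c / 2))`
(`j ≤ p ^ j ≤ E`), `omega_le`, `pow_sec`; otherwise its norm is at most `q₂ ^ (-(c / (4 k))) ≤ ε` by `prod_dec`, `dec_large`.  `Sec.mul`, `(1 + η / 4) ^ 2 ≤ 1 + η`, `Sec.fin`. -/

namespace Vale.Agent.P042.S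

open Finset Polynomial

theorem globT (k : ℕ) {η : ℝ} (h0 : 0 < η) (h1 : η ≤ 1) : ∃ e : ℕ, ∀ h : ℤ[X], 1 ≤ h.natDegree →
    h.natDegree ≤ k → (∀ q : ℕ, 1 ≤ q → ∃ t : ℤ, (q : ℤ) ∣ h.eval t) → ∃ A : ℕ, ∀ L : ℕ, 1 ≤ L →
      ∃ R : ℕ, 2 ^ L ≤ R ∧ R ≤ 2 ^ (A * L ^ e) ∧ ∀ E : ℕ, ∃ w, Ser h η (2 * (1 / 2) ^ L) R E w := by
  rcases Nat.eq_zero_or_pos k with rfl | hk
  · exact ⟨0, fun h a b => by omega⟩
  obtain ⟨c, Λ, hc, hc1, hΛ, hloc⟩ := locT k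
  obtain ⟨e, he⟩ := par hc hc1 hΛ h0 hk
  refine ⟨e, fun h d1 dk hint => ?_⟩
  obtain ⟨A, hA⟩ := he h.leadingCoeff.natAbs
  refine ⟨A, fun L hL => ?_⟩
  obtain ⟨b, y, J, τ, t0, t1, hb, b1, b2, y1, y2, y3, t2, t3, hAe⟩ := hA L hL
  refine ⟨y.factorial ^ J * 2 ^ b, (Nat.pow_le_pow_right two_pos hb).trans
    (Nat.le_mul_of_pos_left _ (pow_pos y.factorial_pos J)),
    (fact_le y J b).trans (Nat.pow_le_pow_right two_pos hAe), fun E => ?_⟩
  obtain ⟨z, hz⟩ := hint E.factorial E.factorial_pos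
  have hdv : ∀ p : ℕ, p.Prime → ∀ j : ℕ, p ^ j ≤ E → ((p ^ j : ℕ) : ℤ) ∣ h.eval z :=
    fun p hp j hj => (Int.natCast_dvd_natCast.2 (Nat.dvd_factorial (pow_pos hp.pos j) hj)).trans hz
  have hc2 : -(c / 2) ≤ 0 := by linarith
  have hε0 : (0 : ℝ) ≤ (1 / 2) ^ L := by positivity
  have hε1 : (1 / 2 : ℝ) ^ L ≤ 1 := pow_le_one₀ (by norm_num) (by norm_num)
  have hy0 : (0 : ℝ) < y := by exact_mod_cast y3
  have hΛ0 : 0 ≤ Λ := zero_le_one.trans hΛ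
  have r0 : ∀ p : ℕ, (0 : ℝ) ≤ (p : ℝ) ^ (-(c / 2)) := fun p => by positivity
  have r1 : ∀ p : ℕ, 1 ≤ p → (p : ℝ) ^ (-(c / 2)) ≤ 1 := fun p hp =>
    Real.rpow_le_one_of_one_le_of_nonpos (by exact_mod_cast hp) hc2
  have t4 : 0 ≤ 1 - τ := le_trans (by positivity) t1
  obtain ⟨θ, θ1, θ2⟩ : ∃ θ : ℕ → ℝ, (∀ p, p ≤ y → θ p = 1 - τ) ∧
      ∀ p, y < p → θ p = (p : ℝ) ^ (-(c / 2)) :=
    ⟨fun p => if p ≤ y then 1 - τ else (p : ℝ) ^ (-(c / 2)), fun p hp => if_pos hp,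
      fun p hp => if_neg (not_le.2 hp)⟩
  obtain ⟨J', J1, J2⟩ : ∃ J' : ℕ → ℕ, (∀ p, p ≤ y → J' p = J) ∧ ∀ p, y < p → J' p = E :=
    ⟨fun p => if p ≤ y then J else E, fun p hp => if_pos hp, fun p hp => if_neg (not_le.2 hp)⟩
  have θ0 : ∀ p, 0 ≤ θ p := fun p => by
    rcases le_or_gt p y with hp | hp
    · rw [θ1 p hp]; exact t4
    · rw [θ2 p hp]; exact r0 p
  have θ3 : ∀ p, θ p ≤ 1 := fun p => by
    rcases le_or_gt p y with hp | hp
    · rw [θ1 p hp]; linarith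
    · rw [θ2 p hp]; exact r1 p (by omega)
  have hW : LW (DT θ J' z) := DT_lw θ0 θ3
  have hD : ∀ p : ℕ, p.Prime → p ≤ y → ∀ i, J < i → ∀ n, DT θ J' z p i n = 0 := by
    intro p _ hp i hi n
    cases i with
    | zero => omega
    | succ i => exact if_neg (by rw [J1 p hp]; omega)
  have hl := hloc h d1 dk θ J' z θ0 θ3
  have s1 := prod_sec (h := h) hW (P := fun p => p ≤ y) (ξ := τ * Λ) (E := E) (by positivity) hε0 hε1
    fun p hp hy j a hj ha => by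
      have e1 : (p : ℝ) ^ (-(c / 2)) ≤ θ p := by
        rw [θ1 p hy]
        exact (Real.rpow_le_rpow_of_nonpos two_pos (by exact_mod_cast hp.two_le) hc2).trans t1
      have e2 := (hl p hp e1 j a (hdv p hp j hj) ha).1
      rw [θ1 p hy, J1 p hy, sub_sub_cancel] at e2
      have e3 := r0 p
      refine e2.mono (by positivity) ?_ (pow_nonneg t4 J) t3
      have e4 := mul_le_mul_of_nonneg_left (r1 p hp.one_le) (mul_nonneg t0 hΛ0)
      linarith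
  have hl2 := fun (p : ℕ) (hp : p.Prime) (hy : y < p) (j : ℕ) (a : ℤ) (hj : p ^ j ≤ E)
      (ha : IsCoprime a p) => (hl p hp (θ2 p hy).ge j a (hdv p hp j hj) ha).2
        (by rw [J2 p hy]; exact (Nat.lt_pow_self hp.one_lt).le.trans hj)
  have s2 := prod_sec (h := h) hW (P := fun p => y < p) (ξ := Λ * (y : ℝ) ^ (-(c / 2))) (E := E)
    (mul_nonneg hΛ0 (r0 y)) hε0 hε1 fun p hp hy j a hj ha => by
      have e3 := r0 p
      have e4 := sub_nonneg.2 (θ3 p)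
      refine (hl2 p hp hy j a hj ha).1.mono (by positivity) ?_ le_rfl hε0
      have e5 : (p : ℝ) ^ (-(c / 2)) ≤ (y : ℝ) ^ (-(c / 2)) :=
        Real.rpow_le_rpow_of_nonpos hy0 (by exact_mod_cast hy.le) hc2
      have e6 := mul_le_mul_of_nonneg_left e5 hΛ0
      have e7 := mul_nonneg (θ0 p) (mul_nonneg hΛ0 e3)
      linarith
  have s3 := prod_dec (h := h) hW (P := fun p => y < p) (c := c / (4 * k)) (E := E)
    fun p hp hy j a j0 hj ha => by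
      obtain ⟨m, m1, m2⟩ := (hl2 p hp hy j a hj ha).2
      rw [θ2 p hy] at m2
      refine m2.trans (dec_large hc hk y1 ?_ y3 hy j0 m1)
      rw [Int.abs_eq_natAbs]
      exact_mod_cast y2
  refine ⟨wT (DT θ J' z) (y.factorial ^ J) (2 ^ b), wT_wk hW _ _, sg_one hW Nat.one_le_two_pow hD,
    fun q hq hE a ha => ?_⟩
  obtain ⟨q₁, q₂, rfl, hcp, hs, hr⟩ := smooth_rough y q hq
  have q1 : 0 < q₁ := Nat.pos_of_mul_pos_right hq
  have q2 : 0 < q₂ := Nat.pos_of_mul_pos_left hq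
  have q3 : q₁ ≤ E := (Nat.le_mul_of_pos_right _ q2).trans hE
  have q4 : q₂ ≤ E := (Nat.le_mul_of_pos_left _ q1).trans hE
  obtain ⟨a₁, a₂, a1, a2, hS⟩ := sg_split (h := h) (R₂ := 2 ^ b) hW hD q1 q2 hcp hs hr ha
  rw [hS]
  have f1 : Sec (1 + η / 4) ((1 / 2) ^ L) (∑ d ∈ q₁.divisors, tm h (DT θ J' z) q₁ a₁ d) := by
    refine (s1 q₁ q1 q3 hs a₁ a1).mono (by positivity) (pow_sec (by positivity) h1 ?_) hε0 le_rfl
    have e1 : (q₁.primeFactors.card : ℝ) ≤ y := by exact_mod_cast omega_le' hs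
    exact (mul_le_mul_of_nonneg_left e1 (by positivity)).trans t2
  have f2 : Sec (1 + η / 4) ((1 / 2) ^ L)
      (∑ d ∈ q₂.divisors with d ≤ 2 ^ b, tm h (DT θ J' z) q₂ a₂ d) := by
    rcases le_or_gt q₂ (2 ^ b) with hq2 | hq2
    · rw [filter_true_of_mem fun d hd => (Nat.divisor_le hd).trans hq2]
      have e0 := mul_nonneg hΛ0 (r0 y)
      refine (s2 q₂ q2 q4 hr a₂ a2).mono (by positivity) (pow_sec e0 h1 ?_) hε0 le_rfl
      have e1 : (q₂.primeFactors.card : ℝ) ≤ b := by exact_mod_cast omega_le q2 hq2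
      exact (mul_le_mul_of_nonneg_left e1 e0).trans b2
    · refine Or.inl ((norm_sum_le _ _).trans ((sum_le_sum_of_subset_of_nonneg (filter_subset _ _)
        fun _ _ _ => norm_nonneg _).trans ((s3 q₂ q2 q4 hr a₂ a2).trans ?_)))
      have e1 : (q₂ : ℝ) ^ (-(c / (4 * k))) ≤ ((2 ^ b : ℕ) : ℝ) ^ (-(c / (4 * k))) :=
        Real.rpow_le_rpow_of_nonpos (by positivity) (by exact_mod_cast hq2.le)
          (neg_nonpos.2 (by positivity))
      have e2 := mul_nonneg h0.le hε0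
      linarith
  exact (Sec.mul (by linarith) (by linarith) hε0 hε1 f1 f2).fin (by nlinarith) h0.le h1 hε0

end Vale.Agent.P042.S
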