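import Vale.Agent.P042.T.Defs
import Vale.Agent.P042.S.Abel

/-! # P042 T/Phi (TASK; helper names end with _tph): triangular sums at several scales.
`phi_norm`: `norm_ar`.  `phi_re`: `fejer`.  `phi_low`: compare with `β = 0` (`tri_ar`: the sum is `(X + 1) / 2`), `‖ee (β u) - 1‖ ≤ 7 |β| X ≤ 1 / 4` (`ee_lip`).
`phi_high`: `abel` with `g u = ee (β u)`, `F u = 1 - u / X` (total variation `1`, `F X = 0`), `geom_ee` (`round β = 0`, sums over `Ico` of integers versus naturals: `Finset.sum_nbij'`, or S/Dich.lean).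
`phi_multi`: `x i = |β| X i`, `η = 1 / 500`, `f i` the bracket; `f i ≥ 1 / 4 - η` if `x i ≤ 1 / 28` and `f i ≥ -η / (2 x i)` otherwise.  Induction on `I` for: `S I ≥ (1 / 4 - η) (3 / 2) ^ I` if `x I ≤ 1 / 28`, and `S I ≥ -1 + 3 η (3 / 2) ^ I / (2 x I)` otherwise (`2 x I ≤ x (I + 1)`). -/

namespace Vale.Agent.P042.S

open Finset Polynomial

theorem geom_tph {β : ℝ} (hβ : |β| < 1 / 2) (m : ℕ) :
    ‖∑ n ∈ Ico 0 m, ((|β| : ℝ) : ℂ) * ee (β * n)‖ ≤ 1 / 2 := by
  have h0 : round β = 0 := by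
    rw [round_eq_zero_iff]
    exact ⟨(abs_lt.1 hβ).1.le, (abs_lt.1 hβ).2⟩
  have h1 := ee_sub_one β
  rw [h0, Int.cast_zero, sub_zero] at h1
  have h2 : ‖ee β - 1‖ * ‖∑ n ∈ range m, ee β ^ n‖ ≤ 2 := by
    rw [← norm_mul, mul_geom_sum]
    refine (norm_sub_le _ _).trans ?_
    rw [norm_pow, norm_ee, one_pow, norm_one]
    norm_num
  have h3 : ∀ n : ℕ, ee (β * n) = ee β ^ n := fun n => by rw [mul_comm, ee_nat_mul]
  rw [← mul_sum, ← range_eq_Ico, norm_mul, Complex.norm_real, Real.norm_eq_abs, abs_abs]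
  simp only [h3]
  nlinarith [norm_nonneg (∑ n ∈ range m, ee β ^ n)]

theorem phi_norm (X : ℕ) (β : ℝ) : ‖Phi X β‖ ≤ 1 := by
  rcases Nat.eq_zero_or_pos X with rfl | hX
  · simp [Phi]
  have hX' : (0 : ℝ) < X := Nat.cast_pos.2 hX
  rw [Phi, norm_div, Complex.norm_natCast, div_le_one hX']
  refine (norm_sum_le _ _).trans ((sum_le_card_nsmul _ _ 1 fun u hu => ?_).trans ?_)
  · exact norm_ar hX' (Nat.cast_nonneg u) (Nat.cast_le.2 (mem_range.1 hu).le)
  · rw [card_range, nsmul_eq_mul, mul_one]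

theorem phi_re (X : ℕ) (β : ℝ) : 0 ≤ (Phi X β).re := by
  rw [Phi, Complex.div_natCast_re]
  exact div_nonneg (fejer X β) (Nat.cast_nonneg X)

theorem phi_low {X : ℕ} {β : ℝ} (hX : 0 < X) (h : |β| * X ≤ 1 / 28) : 1 / 4 ≤ (Phi X β).re := by
  have hX' : (0 : ℝ) < X := Nat.cast_pos.2 hX
  have h1 : ∀ u ∈ range X, 3 / 4 * (1 - (u : ℝ) / X) ≤ (phi_ar X β u).re := by
    intro u hu
    have h2 : (u : ℝ) ≤ X := Nat.cast_le.2 (mem_range.1 hu).le
    have h3 : 0 ≤ 1 - (u : ℝ) / X := sub_nonneg.2 ((div_le_one hX').2 h2)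
    have h4 := ee_lip (β * u) 0
    rw [ee_zero, sub_zero, abs_mul, Nat.abs_cast] at h4
    have h5 := (abs_le.1 ((Complex.abs_re_le_norm _).trans h4)).1
    rw [Complex.sub_re, Complex.one_re] at h5
    have h6 := mul_le_mul_of_nonneg_left h2 (abs_nonneg β)
    rw [phi_ar, Complex.re_ofReal_mul, mul_comm]
    exact mul_le_mul_of_nonneg_left (by linarith) h3
  have h7 := sum_le_sum h1
  have h8 : (X : ℝ) - X * (X - 1) / (2 * X) = (X + 1) / 2 := by
    field_simp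
    ring
  rw [← mul_sum, tri_ar, h8, ← Complex.re_sum] at h7
  rw [Phi, Complex.div_natCast_re, le_div_iff₀ hX']
  linarith

theorem phi_high (X : ℕ) {β : ℝ} (hβ : |β| < 1 / 2) : ‖Phi X β‖ * (|β| * X) ≤ 1 / 2 := by
  rcases Nat.eq_zero_or_pos X with rfl | hX
  · simp
  have hX' : (0 : ℝ) < X := Nat.cast_pos.2 hX
  have h1 := abel (fun n => ((|β| : ℝ) : ℂ) * ee (β * n)) (fun n => ((1 - (n : ℝ) / X : ℝ) : ℂ))
    (Nat.zero_le X) (B := 1 / 2) fun m _ _ => geom_tph hβ m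
  have h2 : ∀ n ∈ Ico 0 X, ‖((1 - ((n + 1 : ℕ) : ℝ) / X : ℝ) : ℂ) - ((1 - (n : ℝ) / X : ℝ) : ℂ)‖
      = 1 / X := by
    intro n _
    rw [← Complex.ofReal_sub, Complex.norm_real, Real.norm_eq_abs,
      show 1 - ((n + 1 : ℕ) : ℝ) / X - (1 - (n : ℝ) / X) = -(1 / X) by push_cast; ring, abs_neg,
      abs_of_pos (one_div_pos.2 hX')]
  have h3 : ∑ n ∈ Ico 0 X, ((|β| : ℝ) : ℂ) * ee (β * n) * ((1 - (n : ℝ) / X : ℝ) : ℂ)
      = ((|β| : ℝ) : ℂ) * ∑ u ∈ range X, phi_ar X β u := by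
    rw [mul_sum, range_eq_Ico]
    refine sum_congr rfl fun n _ => ?_
    rw [phi_ar]
    ring
  rw [sum_congr rfl h2, h3, div_self hX'.ne', sub_self, Complex.ofReal_zero, norm_zero, zero_add,
    sum_const, Nat.card_Ico, Nat.sub_zero, nsmul_eq_mul, mul_one_div_cancel hX'.ne', mul_one,
    norm_mul, Complex.norm_real, Real.norm_eq_abs, abs_abs] at h1
  rw [Phi, norm_div, Complex.norm_natCast]
  refine le_trans (le_of_eq ?_) h1
  field_simp

theorem phi_multi {X : ℕ → ℕ} {β : ℝ} (h0 : 0 < X 0) (h2 : ∀ i, 2 * X i ≤ X (i + 1))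
    (hβ : |β| < 1 / 2) (I : ℕ) :
    -1 ≤ ∑ i ∈ range (I + 1), (3 / 2 : ℝ) ^ i * ((Phi (X i) β).re - 1 / 500 * ‖Phi (X i) β‖) := by
  have hpos : ∀ i, 0 < X i := by
    intro i
    induction i with
    | zero => exact h0
    | succ i ih =>
      have := h2 i
      omega
  set f : ℕ → ℝ := fun i => (Phi (X i) β).re - 1 / 500 * ‖Phi (X i) β‖ with hf
  set x : ℕ → ℝ := fun i => |β| * X i with hx
  have hlo : ∀ i, x i ≤ 1 / 28 → 1 / 4 - 1 / 500 ≤ f i := fun i hi => by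
    have a1 := phi_low (hpos i) hi
    have a2 := phi_norm (X i) β
    simp only [hf]
    linarith
  have hx0 : ∀ i, 0 ≤ x i := fun i => mul_nonneg (abs_nonneg β) (Nat.cast_nonneg _)
  have hhi : ∀ i, -(1 / 1000) ≤ f i * x i := fun i => by
    have a1 := phi_high (X i) hβ
    have a2 := mul_nonneg (phi_re (X i) β) (hx0 i)
    simp only [hf, hx] at a2 ⊢
    linarith
  have hxx : ∀ i, 2 * x i ≤ x (i + 1) := fun i => by
    have a1 : (2 : ℝ) * X i ≤ X (i + 1) := by exact_mod_cast h2 i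
    have a2 := mul_le_mul_of_nonneg_left a1 (abs_nonneg β)
    simp only [hx]
    linarith
  have key : ∀ I, (x I ≤ 1 / 28 →
      (1 / 4 - 1 / 500) * (3 / 2 : ℝ) ^ I ≤ ∑ i ∈ range (I + 1), (3 / 2 : ℝ) ^ i * f i) ∧
      (1 / 28 < x I → 3 / 1000 * (3 / 2 : ℝ) ^ I ≤
        (∑ i ∈ range (I + 1), (3 / 2 : ℝ) ^ i * f i + 1) * x I) := by
    intro I
    induction I with
    | zero =>
      rw [zero_add, sum_range_one, pow_zero, one_mul, mul_one, mul_one]
      refine ⟨hlo 0, fun h => ?_⟩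
      have := hhi 0
      linarith
    | succ I ih =>
      rw [sum_range_succ _ (I + 1), pow_succ]
      have hc : (0 : ℝ) < (3 / 2) ^ I := by positivity
      generalize ∑ i ∈ range (I + 1), (3 / 2 : ℝ) ^ i * f i = S at ih ⊢
      generalize (3 / 2 : ℝ) ^ I = c at ih hc ⊢
      have a1 := hxx I
      have a2 := hx0 I
      refine ⟨fun h => ?_, fun h => ?_⟩
      · have a3 := ih.1 (by linarith)
        have a4 := mul_le_mul_of_nonneg_left (hlo _ h) hc.le
        linarith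
      · have a4 := mul_le_mul_of_nonneg_left (hhi (I + 1)) hc.le
        have a5 : 3 / 500 * c ≤ (S + 1) * x (I + 1) := by
          rcases le_or_gt (x I) (1 / 28) with h' | h'
          · have a3 := ih.1 h'
            have a6 := mul_le_mul (show (1 / 4 - 1 / 500) * c ≤ S + 1 by linarith) h.le
              (by norm_num) (by linarith)
            linarith
          · have a3 := ih.2 h'
            have a6 : 0 ≤ S + 1 := nonneg_of_mul_nonneg_left (by linarith) (by linarith : 0 < x I)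
            have a7 := mul_le_mul_of_nonneg_left a1 a6
            linarith
        linarith
  have hc : (0 : ℝ) < (3 / 2) ^ I := by positivity
  rcases le_or_gt (x I) (1 / 28) with h | h
  · have := (key I).1 h
    linarith
  · have a1 := (key I).2 h
    have a2 : 0 ≤ ∑ i ∈ range (I + 1), (3 / 2 : ℝ) ^ i * f i + 1 :=
      nonneg_of_mul_nonneg_left (by linarith) (by linarith : 0 < x I)
    linarith

end Vale.Agent.P042.S
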