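import Vale.Agent.P042.T.Scale
import Vale.Agent.P042.T.Phi

/-! # P042 T/KernA (TASK; helper names end with _tka): sums over the scales.
`∑ i ≤ I, (3 / 2) ^ i ≤ 3 (3 / 2) ^ I` (induction), `T ≥ 2`, `M ≤ T ^ i M`, `Complex.re_sum`, `Complex.re_ofReal_mul`, `Complex.abs_re_le_norm`.
`tm_major`: `s` from `hS.sec`, `‖S‖ ≤ 4`; `scale_major` at every scale; `re (S Φ) = s re Φ + re ((S - s) Φ) ≥ s (re Φ - ‖Φ‖ / 500) - ε` (`phi_norm`); `phi_multi` with `X i = (val h (T ^ i * M)).toNat` (`scale_gro`, `pow_succ'`), `0 ≤ s ≤ 1`.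
`tm_zero`: `scale_major` with `q = 1`, `a = 0`, `β = 0`, `E = E' = 1`, `hS.one`, `phi_low`; keep the top term of `∑ (3 / 2) ^ i / 4`. -/

namespace Vale.Agent.P042.S

open Finset Polynomial

variable {h : ℤ[X]} {B : ℝ} {w : ℕ → ℤ → ℝ} {k n₀ : ℕ}

theorem geo_tka (I : ℕ) : ∑ i ∈ range (I + 1), (3 / 2 : ℝ) ^ i ≤ 3 * (3 / 2) ^ I := by
  induction I with
  | zero => norm_num
  | succ I ih =>
    rw [sum_range_succ, pow_succ]
    linarith

theorem low_tka {z : ℕ → ℂ} {f : ℕ → ℝ} {δ : ℝ} {I : ℕ} (hδ : 0 ≤ δ)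
    (H : ∀ i, i ≤ I → f i - δ ≤ (z i).re) :
    ∑ i ∈ range (I + 1), (3 / 2 : ℝ) ^ i * f i - 3 * δ * (3 / 2) ^ I ≤
      (∑ i ∈ range (I + 1), (((3 / 2 : ℝ) ^ i : ℝ) : ℂ) * z i).re := by
  have h1 := mul_le_mul_of_nonneg_right (geo_tka I) hδ
  have h2 : ∑ i ∈ range (I + 1), (3 / 2 : ℝ) ^ i * (f i - δ) ≤
      (∑ i ∈ range (I + 1), (((3 / 2 : ℝ) ^ i : ℝ) : ℂ) * z i).re := by
    rw [Complex.re_sum]
    refine sum_le_sum fun i hi => ?_
    rw [Complex.re_ofReal_mul]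
    exact mul_le_mul_of_nonneg_left (H i (Nat.lt_succ_iff.1 (mem_range.1 hi))) (by positivity)
  simp only [mul_sub, sum_sub_distrib, ← sum_mul] at h2
  linarith

theorem le_tka (hG : Gro (val h) k n₀ B) {T : ℕ} (hT : 2 * B ^ 2 ≤ T) (M i : ℕ) :
    M ≤ T ^ i * M := by
  have h1 : (0 : ℝ) < T := by nlinarith [hG.one]
  exact Nat.le_mul_of_pos_left M (pow_pos (by exact_mod_cast h1) i)

theorem re_tka {x y : ℂ} {c : ℝ} (H : ‖x - y‖ ≤ c) : y.re - c ≤ x.re := by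
  have h1 := (abs_le.1 ((Complex.abs_re_le_norm (x - y)).trans H)).1
  rw [Complex.sub_re] at h1
  linarith

theorem tm_major (hG : Gro (val h) k n₀ B) (hk : 1 ≤ k) {T M R I q E : ℕ} {E' ε β : ℝ} {a : ℤ}
    (hT : 2 * B ^ 2 ≤ T) (hS : Ser h (1 / 500) ε R E w) (hε0 : 0 ≤ ε) (hε : ε ≤ 1) (hM : n₀ ≤ M)
    (hR : 1 ≤ R) (hq : 0 < q) (hqE : q ≤ E) (ha : IsCoprime a q) (hE' : 1 ≤ E')
    (hβ : ∀ i, i ≤ I → |β| * ((T ^ i * M : ℕ) : ℝ) ^ k ≤ E') (hβ' : |β| < 1 / 2)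
    (hME : (R : ℝ) ^ 4 * E * E' ≤ M) :
    -(1 + 3 * (ε + (84 * B ^ 3 + 4 * B ^ 2 * (n₀ : ℝ) ^ k) / R) * (3 / 2) ^ I) ≤
      (Tm h w n₀ M T R I (a / q + β)).re := by
  obtain ⟨s, s0, s1, hs⟩ := hS.sec q hq hqE a ha
  have hB := hG.one
  have h4 : ‖Sg h w R q a‖ ≤ 4 := by
    have h1 := norm_le_insert' (Sg h w R q a) (s : ℂ)
    rw [Complex.norm_real, Real.norm_of_nonneg s0] at h1
    linarith
  have hn : ∀ i, n₀ ≤ T ^ i * M := fun i => hM.trans (le_tka hG hT M i)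
  have h1 := phi_multi (X := fun i => (val h (T ^ i * M)).toNat) (β := β)
    (by have := hG.pos _ (hn 0); omega)
    (fun i => by
      rw [pow_succ', mul_assoc]
      exact scale_gro hG hk hT (hn i)) hβ' I
  have h2 := low_tka (I := I) (δ := ε + (84 * B ^ 3 + 4 * B ^ 2 * (n₀ : ℝ) ^ k) / R)
    (z := fun i => Tk h w n₀ (T ^ i * M) R (a / q + β) / (val h (T ^ i * M) : ℂ))
    (f := fun i => s * ((Phi (val h (T ^ i * M)).toNat β).re -
      1 / 500 * ‖Phi (val h (T ^ i * M)).toNat β‖)) (by positivity) fun i hi => by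
      have h3 := re_tka (scale_major hS.wk hG hk (hn i) hR hq (Nat.cast_le.2 hqE) hE' (hβ i hi)
        (hME.trans (Nat.cast_le.2 (le_tka hG hT M i))) h4)
      have h5 := phi_norm (val h (T ^ i * M)).toNat β
      generalize Phi (val h (T ^ i * M)).toNat β = Φ at h3 h5 ⊢
      have h6 : ‖Sg h w R q a * Φ - s * Φ‖ ≤ (1 / 500 * s + ε) * ‖Φ‖ := by
        rw [← sub_mul, norm_mul]
        exact mul_le_mul_of_nonneg_right hs (norm_nonneg _)
      have h7 := re_tka h6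
      rw [Complex.re_ofReal_mul] at h7
      have h8 := mul_le_of_le_one_right hε0 h5
      linarith
  simp only [mul_left_comm _ s, ← mul_sum] at h2
  have h9 := mul_le_mul_of_nonneg_left h1 s0
  unfold Tm
  linarith

theorem tm_minor (hG : Gro (val h) k n₀ B) (hk : 1 ≤ k) {T M R I : ℕ} {θ : ℝ}
    (hT : 2 * B ^ 2 ≤ T) (hw : Wk w) (hM : n₀ ≤ M) (hR : 1 ≤ R)
    (hX : ∀ i, i ≤ I → ∀ (η : ℝ) (m : ℕ), m ≤ T ^ i * M →
      ‖∑ n ∈ Ico n₀ m, ee (θ * val h n + η * n)‖ ≤ ((T ^ i * M : ℕ) : ℝ) / (R : ℝ) ^ 4) :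
    -(3 * (7 * B ^ 3 / R) * (3 / 2) ^ I) ≤ (Tm h w n₀ M T R I θ).re := by
  have hB := hG.one
  have h2 := low_tka (I := I) (δ := 7 * B ^ 3 / R) (f := fun _ => 0)
    (z := fun i => Tk h w n₀ (T ^ i * M) R θ / (val h (T ^ i * M) : ℂ)) (by positivity)
    fun i hi => by
      have h3 := scale_minor hw hG hk (hM.trans (le_tka hG hT M i)) hR (hX i hi)
      have h4 := (abs_le.1 ((Complex.abs_re_le_norm _).trans h3)).1
      linarith
  simp only [mul_zero, sum_const_zero, zero_sub] at h2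
  exact h2

theorem tm_zero (hG : Gro (val h) k n₀ B) (hk : 1 ≤ k) {T M R I E : ℕ} {η ε : ℝ}
    (hT : 2 * B ^ 2 ≤ T) (hS : Ser h η ε R E w) (hM : n₀ ≤ M) (hR : 1 ≤ R)
    (hME : (R : ℝ) ^ 4 ≤ M) :
    (1 / 4 - 3 * ((84 * B ^ 3 + 4 * B ^ 2 * (n₀ : ℝ) ^ k) / R)) * (3 / 2) ^ I ≤
      (Tm h w n₀ M T R I 0).re := by
  have hB := hG.one
  have h2 := low_tka (I := I) (δ := (84 * B ^ 3 + 4 * B ^ 2 * (n₀ : ℝ) ^ k) / R)
    (f := fun _ => 1 / 4)
    (z := fun i => Tk h w n₀ (T ^ i * M) R 0 / (val h (T ^ i * M) : ℂ)) (by positivity)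
    fun i _ => by
      have hn := hM.trans (le_tka hG hT M i)
      have h3 := scale_major (q := 1) (a := 0) (β := 0) (E := 1) (E' := 1) hS.wk hG hk hn hR
        one_pos (by norm_num) le_rfl (by simp)
        (by simpa using hME.trans (Nat.cast_le.2 (le_tka hG hT M i))) (by rw [hS.one]; norm_num)
      rw [hS.one, one_mul, Int.cast_zero, zero_div, add_zero] at h3
      have h4 := phi_low (X := (val h (T ^ i * M)).toNat) (β := 0)
        (by have := hG.pos _ hn; omega) (by norm_num)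
      linarith [re_tka h3]
  have h5 : (3 / 2 : ℝ) ^ I * (1 / 4) ≤ ∑ i ∈ range (I + 1), (3 / 2 : ℝ) ^ i * (1 / 4) :=
    single_le_sum (f := fun i => (3 / 2 : ℝ) ^ i * (1 / 4)) (fun i _ => by positivity)
      (self_mem_range_succ I)
  unfold Tm
  linarith

end Vale.Agent.P042.S
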