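import Vale.Agent.P042.T.Ball
import Vale.Agent.P042.T.Seq
import Vale.Agent.P042.T.DTw
import Vale.Agent.P042.T.Gw

/-! # P042 T/LocT (TASK; helper names end with _tlo): the local factor.
`c` from `ball k`, `ρ₁ = 2 ^ (-(c / 2)) < 1`, `Λ = 6 / (1 - ρ₁)`, `ρ = p ^ (-(c / 2)) ≤ ρ₁`, `p ^ (-c) = ρ ρ ≤ θ ρ`.  `Nat.sum_divisors_prime_pow`, `gw_powW (DT_lw ..)`, `sum_range_succ'`, `DT_tm0`, `DT_tm`:
the sum is `G 0 + ∑ i < n, θ ^ (i + 1) (G (i + 1) - G i)` with `n = min j (J p)` (`sum_filter`, or `sum_subset`); `seq_sec`; if `n < m ≤ j` then `n = J p`; `Sec.mono`. -/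

namespace Vale.Agent.P042.S

open Finset Polynomial

theorem locT (k : ℕ) : ∃ c Λ : ℝ, 0 < c ∧ c ≤ 1 ∧ 1 ≤ Λ ∧ ∀ h : ℤ[X], 1 ≤ h.natDegree →
    h.natDegree ≤ k → ∀ (θ : ℕ → ℝ) (J : ℕ → ℕ) (z : ℤ), (∀ p, 0 ≤ θ p) → (∀ p, θ p ≤ 1) →
      ∀ p : ℕ, p.Prime → (p : ℝ) ^ (-(c / 2)) ≤ θ p → ∀ (j : ℕ) (a : ℤ),
        ((p ^ j : ℕ) : ℤ) ∣ h.eval z → IsCoprime a p →
          Sec (1 + (1 - θ p) * Λ * (p : ℝ) ^ (-(c / 2))) (θ p ^ J p)
            (∑ d ∈ (p ^ j).divisors, tm h (DT θ J z) (p ^ j) a d) ∧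
          (j ≤ J p → Sec (1 + (1 - θ p) * Λ * (p : ℝ) ^ (-(c / 2))) 0
            (∑ d ∈ (p ^ j).divisors, tm h (DT θ J z) (p ^ j) a d) ∧
            ∃ m : ℕ, (p : ℤ) ^ j ≤ |h.leadingCoeff| * (p : ℤ) ^ (k * m) ∧
              ∑ d ∈ (p ^ j).divisors, ‖tm h (DT θ J z) (p ^ j) a d‖ ≤ Λ * θ p ^ m) := by
  obtain ⟨c, hc, hc1, hB⟩ := ball k
  have hρ₁ : (2 : ℝ) ^ (-(c / 2)) < 1 := Real.rpow_lt_one_of_one_lt_of_neg one_lt_two (by linarith)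
  have hρ₀ : 0 < (2 : ℝ) ^ (-(c / 2)) := Real.rpow_pos_of_pos two_pos _
  have hΛ : 1 ≤ 6 / (1 - (2 : ℝ) ^ (-(c / 2))) := by
    rw [le_div_iff₀ (by linarith)]
    linarith
  refine ⟨c, 6 / (1 - (2 : ℝ) ^ (-(c / 2))), hc, hc1, hΛ,
    fun h hk hk' θ J z h0 h1 p hp hθ j a hz ha => ?_⟩
  obtain ⟨m, hm, g1, g2, g3⟩ := hB h hk hk' p hp j z a hz ha
  have hp0 : (0 : ℝ) < p := by exact_mod_cast hp.pos
  have hρ : 0 < (p : ℝ) ^ (-(c / 2)) := Real.rpow_pos_of_pos hp0 _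
  have hρ' : (p : ℝ) ^ (-(c / 2)) ≤ (2 : ℝ) ^ (-(c / 2)) :=
    Real.rpow_le_rpow_of_nonpos two_pos (by exact_mod_cast hp.two_le) (by linarith)
  have h2 : (p : ℝ) ^ (-c) ≤ θ p * (p : ℝ) ^ (-(c / 2)) := by
    have e : (p : ℝ) ^ (-c) = (p : ℝ) ^ (-(c / 2)) * (p : ℝ) ^ (-(c / 2)) := by
      rw [← Real.rpow_add hp0]
      congr 1
      ring
    rw [e]
    exact mul_le_mul_of_nonneg_right hθ hρ.le
  have hS := seq_sec (G := Gb h z a p j) (hρ.trans_le hθ) (h1 p) hρ.le hρ' hρ₁ g1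
    (fun i hi => (g2 i hi).trans (mul_le_mul_of_nonneg_left
      (pow_le_pow_left₀ (Real.rpow_nonneg hp0.le _) h2 _) zero_le_two))
    (fun i => norm_Gb p j i a) (min j (J p))
  have hL : LW (DT θ J z) := DT_lw h0 h1
  have t0 : tm h (DT θ J z) (p ^ j) a (p ^ 0) = Gb h z a p j 0 := by
    simp only [tm, gw_powW hL hp]
    exact DT_tm0 p j a
  have t1 : ∀ i ∈ range j, tm h (DT θ J z) (p ^ j) a (p ^ (i + 1)) =
      if i < J p then (θ p : ℂ) ^ (i + 1) * (Gb h z a p j (i + 1) - Gb h z a p j i) else 0 :=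
    fun i hi => by
      simp only [tm, gw_powW hL hp]
      exact DT_tm hp (mem_range.1 hi) a
  have hf : (range j).filter (fun i => i < J p) = range (min j (J p)) := by
    ext i
    simp only [mem_filter, mem_range, lt_min_iff]
  have e1 : ∑ d ∈ (p ^ j).divisors, tm h (DT θ J z) (p ^ j) a d = Gb h z a p j 0 +
      ∑ i ∈ range (min j (J p)),
        (θ p : ℂ) ^ (i + 1) * (Gb h z a p j (i + 1) - Gb h z a p j i) := by
    rw [Nat.sum_divisors_prime_pow hp, sum_range_succ', t0, sum_congr rfl t1, ← sum_filter, hf,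
      add_comm]
  have e2 : ∑ d ∈ (p ^ j).divisors, ‖tm h (DT θ J z) (p ^ j) a d‖ = ‖Gb h z a p j 0‖ +
      ∑ i ∈ range (min j (J p)),
        ‖(θ p : ℂ) ^ (i + 1) * (Gb h z a p j (i + 1) - Gb h z a p j i)‖ := by
    rw [Nat.sum_divisors_prime_pow hp, sum_range_succ', t0, add_comm, ← hf, sum_filter]
    congr 1
    refine sum_congr rfl fun i hi => ?_
    rw [t1 i hi]
    split_ifs
    · rfl
    · exact norm_zero
  have hΓ : 0 ≤ 1 + (1 - θ p) * (6 / (1 - (2 : ℝ) ^ (-(c / 2)))) * (p : ℝ) ^ (-(c / 2)) :=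
    add_nonneg zero_le_one
      (mul_nonneg (mul_nonneg (sub_nonneg.2 (h1 p)) (zero_le_one.trans hΛ)) hρ.le)
  rw [e1, e2]
  refine ⟨?_, fun hj => ?_⟩
  · rcases le_or_gt m (min j (J p)) with h3 | h3
    · exact (hS.1 h3).mono hΓ le_rfl le_rfl (pow_nonneg (h0 p) _)
    · have h4 := hS.2.1 h3.le
      have h5 : min j (J p) = J p := by omega
      rw [h5] at h4 ⊢
      exact Or.inl h4
  · have h3 : m ≤ min j (J p) := by omega
    exact ⟨hS.1 h3, m, g3, hS.2.2 h3⟩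

end Vale.Agent.P042.S
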