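import Vale.Agent.P042.T.Seq
import Vale.Agent.P042.T.Gw

/-! # P042 T/Prod (helper names end with _tpr): products over primes.
`prod_sec`, `prod_dec`: induction `Nat.recOnPosPrimePosCoprime` exactly as `both_gl` in S/Glob.lean (`ph_split`, `sum_div_gl`, `split_glW`, `sum_mul_sum`, `Sec.mul`, `sec_one`, `tm_one`).
`smooth_rough`: induction on `q` (`Nat.recOnMul` or `induction_on_primes`) for the two prime conditions; coprimality follows from them (`Nat.coprime_of_dvd`). -/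

namespace Vale.Agent.P042.S

open Finset Polynomial

variable {h : ℤ[X]} {D : ℕ → ℕ → ℤ → ℝ}

theorem tm_one (a : ℤ) : tm h D 1 a 1 = 1 := by
  simp only [tm, av, gw, ph, range_one, sum_singleton, Nat.factorization_one,
    Finsupp.prod_zero_index, Nat.cast_one, div_one, ee_int]
  simp

theorem prod_sec (hL : LW D) {P : ℕ → Prop} {ξ ε : ℝ} {E : ℕ} (hξ : 0 ≤ ξ) (h0 : 0 ≤ ε) (h1 : ε ≤ 1)
    (H : ∀ p : ℕ, p.Prime → P p → ∀ (j : ℕ) (a : ℤ), p ^ j ≤ E → IsCoprime a p →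
      Sec (1 + ξ) ε (∑ d ∈ (p ^ j).divisors, tm h D (p ^ j) a d)) (q : ℕ) :
    0 < q → q ≤ E → (∀ p : ℕ, p.Prime → p ∣ q → P p) → ∀ a : ℤ, IsCoprime a q →
      Sec ((1 + ξ) ^ q.primeFactors.card) ε (∑ d ∈ q.divisors, tm h D q a d) := by
  induction q using Nat.recOnPosPrimePosCoprime with
  | prime_pow p j hp hj =>
    intro _ hE hP a ha
    rw [Nat.cast_pow] at ha
    rw [Nat.primeFactors_prime_pow hj.ne' hp, card_singleton, pow_one]
    exact H p hp (hP p hp (dvd_pow_self p hj.ne')) j a hE ((IsCoprime.pow_right_iff hj).1 ha)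
  | zero => intro h0; exact absurd h0 (lt_irrefl 0)
  | one =>
    intro _ _ _ a _
    rw [Nat.divisors_one, sum_singleton, tm_one, Nat.primeFactors_one, card_empty, pow_zero]
    exact sec_one ε
  | coprime q₁ q₂ h₁ h₂ hq ih₁ ih₂ =>
    intro _ hE hP a ha
    have p₁ : 0 < q₁ := by omega
    have p₂ : 0 < q₂ := by omega
    obtain ⟨a₁, a₂, c₁, c₂, H'⟩ := ph_split h hq p₁ p₂ ha
    have b₁ := ih₁ p₁ ((Nat.le_mul_of_pos_right _ p₂).trans hE)
      (fun p hp hd => hP p hp (hd.mul_right _)) a₁ c₁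
    have b₂ := ih₂ p₂ ((Nat.le_mul_of_pos_left _ p₁).trans hE)
      (fun p hp hd => hP p hp (hd.mul_left _)) a₂ c₂
    unfold tm at b₁ b₂ ⊢
    rw [sum_div_gl hq, sum_congr rfl fun d₁ hd₁ => sum_congr rfl fun d₂ hd₂ =>
      split_glW hL hq p₁ p₂ H' hd₁ hd₂, ← sum_mul_sum, hq.primeFactors_mul,
      card_union_of_disjoint hq.disjoint_primeFactors, pow_add]
    exact Sec.mul (one_le_pow₀ (by linarith)) (one_le_pow₀ (by linarith)) h0 h1 b₁ b₂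

theorem prod_dec (hL : LW D) {P : ℕ → Prop} {c : ℝ} {E : ℕ}
    (H : ∀ p : ℕ, p.Prime → P p → ∀ (j : ℕ) (a : ℤ), 0 < j → p ^ j ≤ E → IsCoprime a p →
      ∑ d ∈ (p ^ j).divisors, ‖tm h D (p ^ j) a d‖ ≤ ((p ^ j : ℕ) : ℝ) ^ (-c)) (q : ℕ) :
    0 < q → q ≤ E → (∀ p : ℕ, p.Prime → p ∣ q → P p) → ∀ a : ℤ, IsCoprime a q →
      ∑ d ∈ q.divisors, ‖tm h D q a d‖ ≤ (q : ℝ) ^ (-c) := by
  induction q using Nat.recOnPosPrimePosCoprime with
  | prime_pow p j hp hj =>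
    intro _ hE hP a ha
    rw [Nat.cast_pow] at ha
    exact H p hp (hP p hp (dvd_pow_self p hj.ne')) j a hj hE ((IsCoprime.pow_right_iff hj).1 ha)
  | zero => intro h0; exact absurd h0 (lt_irrefl 0)
  | one =>
    intro _ _ _ a _
    rw [Nat.divisors_one, sum_singleton, tm_one, norm_one, Nat.cast_one, Real.one_rpow]
  | coprime q₁ q₂ h₁ h₂ hq ih₁ ih₂ =>
    intro _ hE hP a ha
    have p₁ : 0 < q₁ := by omega
    have p₂ : 0 < q₂ := by omega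
    obtain ⟨a₁, a₂, c₁, c₂, H'⟩ := ph_split h hq p₁ p₂ ha
    have b₁ := ih₁ p₁ ((Nat.le_mul_of_pos_right _ p₂).trans hE)
      (fun p hp hd => hP p hp (hd.mul_right _)) a₁ c₁
    have b₂ := ih₂ p₂ ((Nat.le_mul_of_pos_left _ p₁).trans hE)
      (fun p hp hd => hP p hp (hd.mul_left _)) a₂ c₂
    unfold tm at b₁ b₂ ⊢
    rw [sum_div_gl hq, sum_congr rfl fun d₁ hd₁ => sum_congr rfl fun d₂ hd₂ => by
      rw [split_glW hL hq p₁ p₂ H' hd₁ hd₂, norm_mul], ← sum_mul_sum, Nat.cast_mul,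
      Real.mul_rpow (Nat.cast_nonneg _) (Nat.cast_nonneg _)]
    exact mul_le_mul b₁ b₂ (sum_nonneg fun _ _ => norm_nonneg _) (by positivity)

theorem split_tpr (y q : ℕ) : q ≠ 0 → ∃ q₁ q₂ : ℕ, q = q₁ * q₂ ∧
    (∀ p : ℕ, p.Prime → p ∣ q₁ → p ≤ y) ∧ ∀ p : ℕ, p.Prime → p ∣ q₂ → y < p := by
  induction q using induction_on_primes with
  | zero => exact fun h0 => absurd rfl h0
  | one => exact fun _ => ⟨1, 1, rfl, fun p hp hd => absurd hd hp.not_dvd_one,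
      fun p hp hd => absurd hd hp.not_dvd_one⟩
  | prime_mul r q hr ih =>
    intro h0
    obtain ⟨q₁, q₂, rfl, h1, h2⟩ := ih (right_ne_zero_of_mul h0)
    rcases le_or_gt r y with hy | hy
    · refine ⟨r * q₁, q₂, (mul_assoc _ _ _).symm, fun p hp hd => ?_, h2⟩
      exact ((Nat.Prime.dvd_mul hp).1 hd).elim
        (fun e => (Nat.prime_dvd_prime_iff_eq hp hr).1 e ▸ hy) (h1 p hp)
    · refine ⟨q₁, r * q₂, mul_left_comm _ _ _, h1, fun p hp hd => ?_⟩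
      exact ((Nat.Prime.dvd_mul hp).1 hd).elim
        (fun e => (Nat.prime_dvd_prime_iff_eq hp hr).1 e ▸ hy) (h2 p hp)

theorem smooth_rough (y q : ℕ) (hq : 0 < q) : ∃ q₁ q₂ : ℕ, q = q₁ * q₂ ∧ q₁.Coprime q₂ ∧
    (∀ p : ℕ, p.Prime → p ∣ q₁ → p ≤ y) ∧ ∀ p : ℕ, p.Prime → p ∣ q₂ → y < p := by
  obtain ⟨q₁, q₂, e, h1, h2⟩ := split_tpr y q hq.ne'
  exact ⟨q₁, q₂, e, Nat.coprime_of_dvd fun p hp d1 d2 => (h1 p hp d1).not_gt (h2 p hp d2), h1, h2⟩

end Vale.Agent.P042.S
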