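import Vale.Agent.P042.T.Arc

/-! # P042 T/Scale (TASK; helper names end with _tsc): one scale.
`X = val h M > 0`, `M ^ k ≤ B X` (`hG.low`), `M ^ k = M ^ (k - 1) M`.  `scale_major`: `T / X - S Φ = ((T - S I) + S (I - X Φ)) / X`; `majorW` gives `28 B ^ 2 R ^ 3 E E' M ^ (k - 1) ≤ 28 B ^ 3 X / R`;
`cmpW` gives `14 B ^ 2 M ^ (k - 1) E' + B n₀ ^ k ≤ (14 B ^ 3 + B ^ 2 n₀ ^ k) X / R` (`1 ≤ q ≤ E`, `R E' ≤ M`, `R ≤ M ≤ M ^ k`).  `scale_minor`: `minorW`.  `scale_gro`: `B H (T M) ≥ (T M) ^ k ≥ T M ^ k ≥ 2 B ^ 2 M ^ k ≥ 2 B H M`. -/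

namespace Vale.Agent.P042.S

open Finset Polynomial

variable {h : ℤ[X]} {B : ℝ} {w : ℕ → ℤ → ℝ} {k n₀ : ℕ}

theorem base_tsc (hG : Gro (val h) k n₀ B) (hk : 1 ≤ k) {M : ℕ} (hM : n₀ ≤ M) :
    (0 : ℝ) < val h M ∧ (M : ℝ) ^ (k - 1) * M ≤ B * val h M ∧ (M : ℝ) ≤ B * val h M ∧
      ‖(val h M : ℂ)‖ = val h M := by
  have h0 : (0 : ℝ) < val h M := by exact_mod_cast hG.pos M hM
  have h1 : (1 : ℝ) ≤ M := by exact_mod_cast hG.npos.trans_le hM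
  refine ⟨h0, ?_, (le_self_pow₀ h1 (by omega)).trans (hG.low M hM), ?_⟩
  · rw [← pow_succ, Nat.sub_add_cancel hk]
    exact hG.low M hM
  · rw [Complex.norm_intCast, abs_of_pos h0]

theorem scale_major (hw : Wk w) (hG : Gro (val h) k n₀ B) (hk : 1 ≤ k) {M R q : ℕ} {E E' β : ℝ}
    {a : ℤ} (hM : n₀ ≤ M) (hR : 1 ≤ R) (hq : 0 < q) (hqE : (q : ℝ) ≤ E) (hE' : 1 ≤ E')
    (hβ : |β| * (M : ℝ) ^ k ≤ E') (hME : (R : ℝ) ^ 4 * E * E' ≤ M) (hS : ‖Sg h w R q a‖ ≤ 4) :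
    ‖Tk h w n₀ M R (a / q + β) / (val h M : ℂ) - Sg h w R q a * Phi (val h M).toNat β‖ ≤
      (84 * B ^ 3 + 4 * B ^ 2 * (n₀ : ℝ) ^ k) / R := by
  obtain ⟨h0, h1, h2, h3⟩ := base_tsc hG hk hM
  have a1 := majorW hw hG (R := R) hM hq a β
  have a2 := cmpW hG hM β
  have hX : (((val h M).toNat : ℕ) : ℂ) = (val h M : ℂ) := by
    rw [← Int.cast_natCast, Int.toNat_of_nonneg (hG.pos M hM).le]
  have hX0 : (val h M : ℂ) ≠ 0 := by exact_mod_cast (hG.pos M hM).ne'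
  rw [Phi, hX]
  generalize Tk h w n₀ M R (a / q + β) = T at a1 ⊢
  generalize Sg h w R q a = S at a1 hS ⊢
  generalize ∑ n ∈ Ico n₀ M, Fw (val h) M β n = I at a1 a2
  generalize ∑ u ∈ range (val h M).toNat, phi_ar (val h M).toNat β u = J at a2 ⊢
  have e : T / (val h M : ℂ) - S * (J / (val h M : ℂ)) =
      ((T - S * I) + S * (I - J)) / (val h M : ℂ) := by
    field_simp
    ring
  have hR' : (1 : ℝ) ≤ R := by exact_mod_cast hR
  have hq' : (1 : ℝ) ≤ q := by exact_mod_cast hq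
  have hB := hG.one
  have hE : 1 ≤ E := hq'.trans hqE
  have hP : (0 : ℝ) ≤ (M : ℝ) ^ (k - 1) := by positivity
  have hn : (0 : ℝ) ≤ (n₀ : ℝ) ^ k := by positivity
  rw [e, norm_div, h3, div_le_div_iff₀ h0 (by positivity)]
  have b0 : ‖T - S * I + S * (I - J)‖ ≤ ‖T - S * I‖ + 4 * ‖I - J‖ := by
    refine (norm_add_le _ _).trans (add_le_add le_rfl ?_)
    rw [norm_mul]
    exact mul_le_mul_of_nonneg_right hS (norm_nonneg _)
  have b1 : 1 + |β| * (M : ℝ) ^ k ≤ 2 * E' := by linarith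
  generalize (M : ℝ) ^ (k - 1) = P at *
  generalize (n₀ : ℝ) ^ k = m at *
  generalize (val h M : ℝ) = X at *
  have c0 : 7 * B ^ 2 * P * (1 + |β| * (M : ℝ) ^ k) ≤ 7 * B ^ 2 * P * (2 * E') :=
    mul_le_mul_of_nonneg_left b1 (by positivity)
  have c1 : ‖T - S * I‖ ≤ 2 * (R : ℝ) ^ 3 * E * (7 * B ^ 2 * P * (2 * E')) :=
    a1.trans (mul_le_mul (mul_le_mul_of_nonneg_left hqE (by positivity)) c0 (by positivity)
      (by positivity))
  have c2 : ‖I - J‖ ≤ 7 * B ^ 2 * P * (2 * E') + B * m := a2.trans (add_le_add c0 le_rfl)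
  have d0 : (R : ℝ) * E' ≤ (R : ℝ) ^ 4 * E * E' :=
    mul_le_mul_of_nonneg_right ((le_self_pow₀ hR' (by norm_num)).trans
      (le_mul_of_one_le_right (by positivity) hE)) (by positivity)
  have d1 : (R : ℝ) ≤ B * X :=
    (((le_mul_of_one_le_right (by positivity) hE').trans d0).trans hME).trans h2
  have d2 : P * ((R : ℝ) ^ 4 * E * E') ≤ B * X := (mul_le_mul_of_nonneg_left hME hP).trans h1
  have d3 : P * ((R : ℝ) * E') ≤ B * X := (mul_le_mul_of_nonneg_left d0 hP).trans d2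
  have f1 := mul_le_mul_of_nonneg_left d1 (show 0 ≤ B * m by positivity)
  have f2 := mul_le_mul_of_nonneg_left d2 (show 0 ≤ B ^ 2 by positivity)
  have f3 := mul_le_mul_of_nonneg_left d3 (show 0 ≤ B ^ 2 by positivity)
  have f4 := mul_le_mul_of_nonneg_right (b0.trans (add_le_add c1
    (mul_le_mul_of_nonneg_left c2 (by norm_num)))) (show (0 : ℝ) ≤ R by positivity)
  linarith

theorem scale_minor (hw : Wk w) (hG : Gro (val h) k n₀ B) (hk : 1 ≤ k) {M R : ℕ} {θ : ℝ}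
    (hM : n₀ ≤ M) (hR : 1 ≤ R) (hX : ∀ (η : ℝ) (m : ℕ), m ≤ M →
      ‖∑ n ∈ Ico n₀ m, ee (θ * val h n + η * n)‖ ≤ M / (R : ℝ) ^ 4) :
    ‖Tk h w n₀ M R θ / (val h M : ℂ)‖ ≤ 7 * B ^ 3 / R := by
  obtain ⟨h0, h1, -, h3⟩ := base_tsc hG hk hM
  have a1 := minorW hw hG (R := R) hM θ hX
  have hR' : (0 : ℝ) < R := by exact_mod_cast hR
  have hB := hG.one
  rw [norm_div, h3, div_le_div_iff₀ h0 hR']
  refine (mul_le_mul_of_nonneg_right a1 hR'.le).trans ?_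
  have e : (R : ℝ) ^ 3 * (M / (R : ℝ) ^ 4) * (7 * B ^ 2 * (M : ℝ) ^ (k - 1)) * R =
      7 * B ^ 2 * ((M : ℝ) ^ (k - 1) * M) := by
    field_simp
  rw [e]
  have := mul_le_mul_of_nonneg_left h1 (show 0 ≤ 7 * B ^ 2 by positivity)
  linarith

theorem scale_gro (hG : Gro (val h) k n₀ B) (hk : 1 ≤ k) {T M : ℕ} (hT : 2 * B ^ 2 ≤ T)
    (hM : n₀ ≤ M) : 2 * (val h M).toNat ≤ (val h (T * M)).toNat := by
  have hB := hG.one
  have hT1 : (1 : ℝ) ≤ T := by nlinarith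
  have hT2 : 1 ≤ T := by exact_mod_cast hT1
  have hM' : n₀ ≤ T * M := hM.trans (Nat.le_mul_of_pos_left M hT2)
  have a1 := hG.low _ hM'
  have a2 := hG.up _ hM
  have a3 : (T : ℝ) ≤ (T : ℝ) ^ k := le_self_pow₀ hT1 (by omega)
  have hP : (0 : ℝ) ≤ (M : ℝ) ^ k := by positivity
  rw [Nat.cast_mul, mul_pow] at a1
  have a4 := mul_le_mul_of_nonneg_right (hT.trans a3) hP
  have a5 := mul_le_mul_of_nonneg_left a2 (zero_le_one.trans hB)
  have a6 : B * (2 * val h M) ≤ B * val h (T * M) := by linarith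
  have a7 : 2 * val h M ≤ val h (T * M) := by
    exact_mod_cast le_of_mul_le_mul_left a6 (zero_lt_one.trans_le hB)
  have := hG.pos M hM
  omega

end Vale.Agent.P042.S
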